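import Mathlib

/-!
# P249: assembly of the near-linear dimension bound

From an abstract pair-sensitivity bound (`SensStatement`) and an abstract
coordinate-sampling lemma (`SamplingStatement`) we derive the embedding statement
for finite subsets of `ℓ_p^m` in the `PiLp` language.
-/

namespace Vale.Agent.Lib.P249.H75

open Finset

/-- The coordinate sampling lemma (B), as a statement. -/
def SamplingStatement : Prop :=
  ∀ (K F : Type) [Fintype K] [Fintype F]
    (w : K → F → ℝ) (s : K → ℝ) (v : F → ℝ) (S : ℝ),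
    (∀ k f, 0 ≤ w k f) → (∀ f, v f = ∑ k, w k f) →
    (∀ k, 0 ≤ s k) → (∀ k f, w k f ≤ s k * v f) →
    S = ∑ k, s k → 0 < S →
    ∀ (ε : ℝ), 0 < ε → ε ≤ 1 →
    ∀ (d : ℕ), 8 * S * Real.log (2 * (Fintype.card F : ℝ) + 1) ≤ ε ^ 2 * d →
    ∃ κ : Fin d → K, ∀ f,
      (1 - ε) * v f ≤ ∑ l, w (κ l) f * (S / ((d : ℝ) * s (κ l))) ∧
      ∑ l, w (κ l) f * (S / ((d : ℝ) * s (κ l))) ≤ (1 + ε) * v f

/-- The pair-sensitivity bound (A), as a statement: coordinate weights `s k`
dominating the relative contribution of coordinate `k` to every pair, of total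
mass at most `A * n * (log n)^(q+1)`. -/
def SensStatement (q A : ℝ) : Prop :=
  ∀ (n m : ℕ), 2 ≤ n → ∀ x : Fin n → Fin m → ℝ,
    ∃ s : Fin m → ℝ, (∀ k, 0 ≤ s k) ∧
      (∀ k a b, |x a k - x b k| ^ q ≤ s k * ∑ k', |x a k' - x b k'| ^ q) ∧
      ∑ k, s k ≤ A * n * Real.log n ^ (q + 1)

theorem dist_formula (p : ENNReal) (hq : 0 < p.toReal) (m : ℕ)
    (x y : PiLp p (fun _ : Fin m => ℝ)) :
    dist x y = (∑ k, |x k - y k| ^ p.toReal) ^ (1 / p.toReal) := by
  rw [PiLp.dist_eq_sum hq]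
  simp only [Real.dist_eq]

theorem log_card_bound (n : ℕ) (hn : 2 ≤ n) :
    Real.log (2 * ((n * n : ℕ) : ℝ) + 1) ≤ 4 * Real.log n := by
  have hn' : (2 : ℝ) ≤ n := by exact_mod_cast hn
  have h1 : (2 : ℝ) * ((n * n : ℕ) : ℝ) + 1 ≤ (n : ℝ) ^ 4 := by
    push_cast
    nlinarith [mul_nonneg (sub_nonneg.2 hn') (sub_nonneg.2 hn'),
      mul_nonneg (mul_nonneg (sub_nonneg.2 hn') (sub_nonneg.2 hn')) (sq_nonneg (n : ℝ))]
  have h2 : (0 : ℝ) < 2 * ((n * n : ℕ) : ℝ) + 1 := by positivity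
  calc Real.log (2 * ((n * n : ℕ) : ℝ) + 1) ≤ Real.log ((n : ℝ) ^ 4) :=
        Real.log_le_log h2 h1
    _ = 4 * Real.log n := by rw [Real.log_pow]; norm_num

theorem log_ge_half (n : ℕ) (hn : 2 ≤ n) : (1 / 2 : ℝ) ≤ Real.log n := by
  have hn' : (2 : ℝ) ≤ n := by exact_mod_cast hn
  have h1 : Real.log 2 ≤ Real.log n := Real.log_le_log (by norm_num) hn'
  have h2 := Real.log_two_gt_d9
  linarith

theorem one_le_bound (q : ℝ) (hq : 1 ≤ q) (n : ℕ) (hn : 2 ≤ n) :
    (1 : ℝ) ≤ (2 : ℝ) ^ (q + 2) * n * Real.log n ^ (q + 2) := by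
  have hn' : (2 : ℝ) ≤ n := by exact_mod_cast hn
  have hl := log_ge_half n hn
  have h1 : (1 / 2 : ℝ) ^ (q + 2) ≤ Real.log n ^ (q + 2) :=
    Real.rpow_le_rpow (by norm_num) hl (by linarith)
  have h2 : (2 : ℝ) ^ (q + 2) * (1 / 2 : ℝ) ^ (q + 2) = 1 := by
    rw [← Real.mul_rpow (by norm_num) (by norm_num)]
    norm_num
  have h3 : (0 : ℝ) < (2 : ℝ) ^ (q + 2) := Real.rpow_pos_of_pos (by norm_num) _
  have h4 : (0 : ℝ) ≤ Real.log n ^ (q + 2) := Real.rpow_nonneg (by linarith) _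
  calc (1 : ℝ) = (2 : ℝ) ^ (q + 2) * (1 / 2 : ℝ) ^ (q + 2) := h2.symm
    _ ≤ (2 : ℝ) ^ (q + 2) * Real.log n ^ (q + 2) := by
        exact mul_le_mul_of_nonneg_left h1 h3.le
    _ ≤ (2 : ℝ) ^ (q + 2) * n * Real.log n ^ (q + 2) := by
        have : (2 : ℝ) ^ (q + 2) * Real.log n ^ (q + 2) * 1 ≤
            (2 : ℝ) ^ (q + 2) * Real.log n ^ (q + 2) * n :=
          mul_le_mul_of_nonneg_left (by linarith) (mul_nonneg h3.le h4)
        nlinarith [this]

/-- Assembly: pair-sensitivity bound + coordinate sampling give the embedding with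
`d ≤ C n (log n)^(p+2)` coordinates. -/
theorem assemble (p : ENNReal) [Fact (1 ≤ p)] (hp : p ≠ ⊤) (D : ℝ) (hD : 1 < D) (A : ℝ)
    (hA : SensStatement p.toReal A) (hB : SamplingStatement) :
    ∃ C : ℝ, ∀ (n m : ℕ), 2 ≤ n → ∀ x : Fin n → PiLp p (fun _ : Fin m => ℝ),
      ∃ (d : ℕ) (y : Fin n → PiLp p (fun _ : Fin d => ℝ)),
        (d : ℝ) ≤ C * n * Real.log n ^ (p.toReal + 2) ∧
        ∀ i j, dist (x i) (x j) ≤ dist (y i) (y j) ∧
          dist (y i) (y j) ≤ D * dist (x i) (x j) := by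
  have hp1 : (1 : ENNReal) ≤ p := Fact.out
  have hq1 : 1 ≤ p.toReal := by
    have := ENNReal.toReal_mono hp hp1
    simpa using this
  generalize hq_def : p.toReal = q at hq1 hA ⊢
  have hq0 : 0 < q := by linarith
  have hqp : 0 < p.toReal := by rw [hq_def]; exact hq0
  have hdist : ∀ (m : ℕ) (x y : PiLp p (fun _ : Fin m => ℝ)),
      dist x y = (∑ k, |x k - y k| ^ q) ^ (1 / q) := by
    intro m x y
    rw [← hq_def]
    exact dist_formula p hqp m x y
  set ε : ℝ := (D - 1) / (D + 1) with hε_def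
  have hε0 : 0 < ε := div_pos (by linarith) (by linarith)
  have hε1 : ε < 1 := by
    rw [hε_def, div_lt_one (by linarith)]; linarith
  have h1ε : 0 < 1 - ε := by linarith
  have hDε : D * (1 - ε) = 1 + ε := by
    rw [hε_def]
    have : D + 1 ≠ 0 := by linarith
    field_simp
    ring
  refine ⟨32 * |A| / ε ^ 2 + 2 ^ (q + 2), ?_⟩
  intro n m hn x
  obtain ⟨s, hs0, hs, hsum⟩ := hA n m hn (fun a k => x a k)
  have hs' : ∀ k a b, |x a k - x b k| ^ q ≤ s k * ∑ k', |x a k' - x b k'| ^ q := hs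
  have hS0 : 0 ≤ ∑ k, s k := Finset.sum_nonneg (fun k _ => hs0 k)
  have hlogn : 1 / 2 ≤ Real.log n := log_ge_half n hn
  have hlog0 : 0 < Real.log n := by linarith
  have hn0 : (0 : ℝ) < n := by
    have : 0 < n := by omega
    exact_mod_cast this
  have h2pos : (0 : ℝ) < (2 : ℝ) ^ (q + 2) := Real.rpow_pos_of_pos (by norm_num) _
  have hRpos : (0 : ℝ) ≤ Real.log n ^ (q + 2) := Real.rpow_nonneg hlog0.le _
  have hCpos : 0 ≤ (32 * |A| / ε ^ 2 + 2 ^ (q + 2)) * n * Real.log n ^ (q + 2) := by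
    have : 0 ≤ 32 * |A| / ε ^ 2 := by positivity
    exact mul_nonneg (mul_nonneg (by linarith) hn0.le) hRpos
  rcases hS0.eq_or_lt with hSz | hSpos
  · -- all weights vanish: the points coincide
    refine ⟨0, fun _ => 0, ?_, ?_⟩
    · simpa using hCpos
    · intro i j
      have hz : ∀ k, s k = 0 := by
        intro k
        exact (Finset.sum_eq_zero_iff_of_nonneg (fun k _ => hs0 k)).1 hSz.symm k
          (Finset.mem_univ k)
      have hxx : dist (x i) (x j) = 0 := by
        rw [hdist]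
        have h0 : ∀ k, |x i k - x j k| ^ q = 0 := by
          intro k
          have h1 := hs' k i j
          rw [hz k, zero_mul] at h1
          exact le_antisymm h1 (Real.rpow_nonneg (abs_nonneg _) _)
        simp only [h0, Finset.sum_const_zero]
        exact Real.zero_rpow (one_div_pos.2 hq0).ne'
      rw [hxx]
      simp
  · -- the main case
    set S : ℝ := ∑ k, s k with hS_def
    set L : ℝ := Real.log (2 * ((n * n : ℕ) : ℝ) + 1) with hL_def
    have hL : L ≤ 4 * Real.log n := log_card_bound n hn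
    have hL0 : 0 ≤ L := by
      apply Real.log_nonneg
      have : (0 : ℝ) ≤ ((n * n : ℕ) : ℝ) := Nat.cast_nonneg _
      linarith
    set d : ℕ := ⌈8 * S * L / ε ^ 2⌉₊ with hd_def
    let w : Fin m → Fin n × Fin n → ℝ := fun k f => |x f.1 k - x f.2 k| ^ q
    let v : Fin n × Fin n → ℝ := fun f => ∑ k, w k f
    have hw0 : ∀ k f, 0 ≤ w k f := fun k f => Real.rpow_nonneg (abs_nonneg _) _
    have hws : ∀ k f, w k f ≤ s k * v f := fun k f => hs' k f.1 f.2
    have hcard : (Fintype.card (Fin n × Fin n) : ℝ) = ((n * n : ℕ) : ℝ) := by simp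
    have hd : 8 * S * Real.log (2 * (Fintype.card (Fin n × Fin n) : ℝ) + 1) ≤ ε ^ 2 * d := by
      rw [hcard]
      have h := Nat.le_ceil (8 * S * L / ε ^ 2)
      rw [div_le_iff₀ (by positivity)] at h
      linarith
    obtain ⟨κ, hκ⟩ := hB (Fin m) (Fin n × Fin n) w s v S hw0 (fun f => rfl) hs0 hws rfl hSpos
      ε hε0 hε1.le d hd
    -- the rescaled sampled coordinates
    have hμ0 : ∀ l, 0 ≤ S / ((d : ℝ) * s (κ l)) / (1 - ε) := fun l => by
      have h1 := hs0 (κ l)
      have h2 : (0 : ℝ) ≤ d := Nat.cast_nonneg _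
      exact div_nonneg (div_nonneg hSpos.le (mul_nonneg h2 h1)) h1ε.le
    let μ : Fin d → ℝ := fun l => (S / ((d : ℝ) * s (κ l)) / (1 - ε)) ^ (1 / q)
    let y : Fin n → PiLp p (fun _ : Fin d => ℝ) :=
      fun a => WithLp.toLp p (fun l => x a (κ l) * μ l)
    have hy : ∀ a b, (∑ l, |y a l - y b l| ^ q) =
        (∑ l, w (κ l) (a, b) * (S / ((d : ℝ) * s (κ l)))) / (1 - ε) := by
      intro a b
      rw [Finset.sum_div]
      refine Finset.sum_congr rfl (fun l _ => ?_)
      have e1 : y a l - y b l = (x a (κ l) - x b (κ l)) * μ l := by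
        show x a (κ l) * μ l - x b (κ l) * μ l = _
        ring
      have hμl : |μ l| ^ q = S / ((d : ℝ) * s (κ l)) / (1 - ε) := by
        rw [abs_of_nonneg (Real.rpow_nonneg (hμ0 l) _)]
        show ((S / ((d : ℝ) * s (κ l)) / (1 - ε)) ^ (1 / q)) ^ q = _
        rw [← Real.rpow_mul (hμ0 l), one_div, inv_mul_cancel₀ hq0.ne', Real.rpow_one]
      rw [e1, abs_mul, Real.mul_rpow (abs_nonneg _) (abs_nonneg _), hμl]
      show |x a (κ l) - x b (κ l)| ^ q * _ = |x a (κ l) - x b (κ l)| ^ q * _ / _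
      ring
    refine ⟨d, y, ?_, ?_⟩
    · -- the dimension bound
      have hpow : Real.log n ^ (q + 2) = Real.log n ^ (q + 1) * Real.log n := by
        rw [show q + 2 = (q + 1) + 1 by ring, Real.rpow_add_one hlog0.ne']
      have hR1 : (0 : ℝ) ≤ Real.log n ^ (q + 1) := Real.rpow_nonneg hlog0.le _
      have hSA : S ≤ |A| * n * Real.log n ^ (q + 1) := by
        refine hsum.trans ?_
        have h1 : A ≤ |A| := le_abs_self A
        have h0 : 0 ≤ (n : ℝ) * Real.log n ^ (q + 1) := mul_nonneg hn0.le hR1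
        calc A * n * Real.log n ^ (q + 1) = A * ((n : ℝ) * Real.log n ^ (q + 1)) := by ring
          _ ≤ |A| * ((n : ℝ) * Real.log n ^ (q + 1)) := mul_le_mul_of_nonneg_right h1 h0
          _ = |A| * n * Real.log n ^ (q + 1) := by ring
      have hceil : (d : ℝ) < 8 * S * L / ε ^ 2 + 1 :=
        Nat.ceil_lt_add_one (by positivity)
      have h8 : 8 * S * L / ε ^ 2 ≤ 32 * |A| / ε ^ 2 * n * Real.log n ^ (q + 2) := by
        rw [div_le_iff₀ (by positivity)]
        have e : 32 * |A| / ε ^ 2 * n * Real.log n ^ (q + 2) * ε ^ 2 =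
            8 * (|A| * n * Real.log n ^ (q + 1)) * (4 * Real.log n) := by
          rw [hpow]
          field_simp
          ring
        rw [e]
        have hA0 : 0 ≤ |A| * n * Real.log n ^ (q + 1) :=
          mul_nonneg (mul_nonneg (abs_nonneg A) hn0.le) hR1
        exact mul_le_mul (by linarith) hL hL0 (by linarith)
      have h1 := one_le_bound q hq1 n hn
      calc (d : ℝ) ≤ 8 * S * L / ε ^ 2 + 1 := hceil.le
        _ ≤ 32 * |A| / ε ^ 2 * n * Real.log n ^ (q + 2) +
            2 ^ (q + 2) * n * Real.log n ^ (q + 2) := by linarith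
        _ = (32 * |A| / ε ^ 2 + 2 ^ (q + 2)) * n * Real.log n ^ (q + 2) := by ring
    · intro i j
      have h1 := hκ (i, j)
      have hv0 : 0 ≤ v (i, j) := Finset.sum_nonneg (fun k _ => hw0 k _)
      have hv : dist (x i) (x j) = (v (i, j)) ^ (1 / q) := hdist m (x i) (x j)
      have hyd : dist (y i) (y j) =
          ((∑ l, w (κ l) (i, j) * (S / ((d : ℝ) * s (κ l)))) / (1 - ε)) ^ (1 / q) := by
        rw [hdist, hy]
      have hlow : v (i, j) ≤ (∑ l, w (κ l) (i, j) * (S / ((d : ℝ) * s (κ l)))) / (1 - ε) := by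
        rw [le_div_iff₀ h1ε]
        linarith [h1.1]
      have hup : (∑ l, w (κ l) (i, j) * (S / ((d : ℝ) * s (κ l)))) / (1 - ε) ≤ D * v (i, j) := by
        rw [div_le_iff₀ h1ε]
        calc _ ≤ (1 + ε) * v (i, j) := h1.2
          _ = D * v (i, j) * (1 - ε) := by rw [← hDε]; ring
      have hq1' : 0 ≤ 1 / q := by positivity
      rw [hv, hyd]
      constructor
      · exact Real.rpow_le_rpow hv0 hlow hq1'
      · calc _ ≤ (D * v (i, j)) ^ (1 / q) :=
              Real.rpow_le_rpow (hv0.trans hlow) hup hq1'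
          _ = D ^ (1 / q) * v (i, j) ^ (1 / q) := Real.mul_rpow (by linarith) hv0
          _ ≤ D * v (i, j) ^ (1 / q) := by
              apply mul_le_mul_of_nonneg_right _ (Real.rpow_nonneg hv0 _)
              calc D ^ (1 / q) ≤ D ^ (1 : ℝ) :=
                    Real.rpow_le_rpow_of_exponent_le hD.le
                      (by rw [div_le_one hq0]; exact hq1)
                _ = D := Real.rpow_one D

end Vale.Agent.Lib.P249.H75
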