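import Mathlib

/-!
# P249: a Moore-type bound for greedily grown graphs

A graph is given by a list `L` of (ordered) pairs, newest first.  `IP t L` says that every
edge, at the moment it was added, joined two vertices that were not yet joined by a walk
of at most `t` hops.  We prove: two simple paths with the same endpoints and total length
at most `t + 1` coincide (`unique_path`), hence a sub-configuration of minimum degree `3`
has at least `3 * 2^(κ-1)` vertices when `2 κ ≤ t + 1` (`card_ge_of_min_deg`), hence the
number of ordered adjacent pairs is at most `4 |V|` when `|V| ≤ 2^κ` (`e2_le`).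
-/

namespace Vale.Agent.Lib.P249.H75.Girth

open Finset

variable {V : Type*}

/-! ### walks as vertex lists -/

/-- `WalkL R a l b`: the vertices of `l`, in order, form a walk from `a` to `b`
(`a` itself is not listed; the walk has `l.length` hops). -/
def WalkL (R : V → V → Prop) : V → List V → V → Prop
  | a, [], b => a = b
  | a, c :: l, b => R a c ∧ WalkL R c l b

theorem walkL_nil {R : V → V → Prop} {a b : V} : WalkL R a [] b ↔ a = b := Iff.rfl

theorem walkL_cons {R : V → V → Prop} {a c b : V} {l : List V} :
    WalkL R a (c :: l) b ↔ R a c ∧ WalkL R c l b := Iff.rfl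

theorem walkL_append {R : V → V → Prop} : ∀ {a b : V} {l₁ l₂ : List V},
    WalkL R a (l₁ ++ l₂) b ↔ ∃ c, WalkL R a l₁ c ∧ WalkL R c l₂ b
  | a, b, [], l₂ => by simp [WalkL]
  | a, b, c :: l₁, l₂ => by
    simp only [List.cons_append, walkL_cons, walkL_append (l₁ := l₁)]
    constructor
    · rintro ⟨h1, c', h2, h3⟩
      exact ⟨c', ⟨h1, h2⟩, h3⟩
    · rintro ⟨c', ⟨h1, h2⟩, h3⟩
      exact ⟨h1, c', h2, h3⟩

theorem WalkL.mono {R R' : V → V → Prop} (h : ∀ a b, R a b → R' a b) :
    ∀ {a b : V} {l : List V}, WalkL R a l b → WalkL R' a l b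
  | _, _, [], hw => hw
  | _, _, _ :: _, hw => ⟨h _ _ hw.1, WalkL.mono h hw.2⟩

/-- the endpoint is listed (or is the start) -/
theorem WalkL.end_mem {R : V → V → Prop} :
    ∀ {a b : V} {l : List V}, WalkL R a l b → b ∈ a :: l
  | a, b, [], hw => by
    have : a = b := hw
    simp [this]
  | _, _, _ :: _, hw => List.mem_cons_of_mem _ (WalkL.end_mem hw.2)

/-! ### reachability within a number of hops -/

/-- joined by a walk of at most `s` hops -/
def Reach (R : V → V → Prop) : ℕ → V → V → Prop
  | 0, a, b => a = b
  | s + 1, a, b => Reach R s a b ∨ ∃ c, Reach R s a c ∧ R c b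

theorem reach_refl (R : V → V → Prop) (s : ℕ) (a : V) : Reach R s a a := by
  induction s with
  | zero => rfl
  | succ s ih => exact Or.inl ih

theorem reach_mono_steps {R : V → V → Prop} {s s' : ℕ} (h : s ≤ s') {a b : V}
    (hr : Reach R s a b) : Reach R s' a b := by
  induction h with
  | refl => exact hr
  | step _ ih => exact Or.inl ih

theorem reach_mono_rel {R R' : V → V → Prop} (h : ∀ a b, R a b → R' a b) :
    ∀ {s : ℕ} {a b : V}, Reach R s a b → Reach R' s a b
  | 0, _, _, hr => hr
  | s + 1, a, b, hr => by
    rcases hr with hr | ⟨c, hr, hc⟩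
    · exact Or.inl (reach_mono_rel h hr)
    · exact Or.inr ⟨c, reach_mono_rel h hr, h _ _ hc⟩

theorem reach_trans {R : V → V → Prop} {s : ℕ} {a b : V} (h1 : Reach R s a b) :
    ∀ {s' : ℕ} {c : V}, Reach R s' b c → Reach R (s + s') a c
  | 0, c, h2 => by
    have : b = c := h2
    subst this
    simpa using h1
  | s' + 1, c, h2 => by
    rcases h2 with h2 | ⟨c', h2, hc⟩
    · exact Or.inl (reach_trans h1 h2)
    · exact Or.inr ⟨c', reach_trans h1 h2, hc⟩

theorem reach_one {R : V → V → Prop} {a b : V} (h : R a b) : Reach R 1 a b :=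
  Or.inr ⟨a, rfl, h⟩

theorem reach_symm {R : V → V → Prop} (hR : ∀ a b, R a b → R b a) :
    ∀ {s : ℕ} {a b : V}, Reach R s a b → Reach R s b a
  | 0, a, b, h => (h : a = b).symm
  | s + 1, a, b, h => by
    rcases h with h | ⟨c, h, hc⟩
    · exact Or.inl (reach_symm hR h)
    · have h1 : Reach R 1 b c := reach_one (hR _ _ hc)
      have h2 := reach_trans h1 (reach_symm hR h)
      rwa [Nat.add_comm] at h2

theorem reach_of_walkL {R : V → V → Prop} :
    ∀ {a b : V} {l : List V}, WalkL R a l b → Reach R l.length a b
  | _, _, [], h => h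
  | a, b, c :: l, h => by
    have h1 : Reach R 1 a c := reach_one h.1
    have h2 := reach_trans h1 (reach_of_walkL h.2)
    simpa [Nat.add_comm] using h2

/-- a walk of at most `s` hops can be replaced by a simple path of at most `s` hops -/
theorem exists_path_of_reach {R : V → V → Prop} :
    ∀ {s : ℕ} {a b : V}, Reach R s a b →
      ∃ l, WalkL R a l b ∧ (a :: l).Nodup ∧ l.length ≤ s
  | 0, a, b, h => ⟨[], h, by simp, le_rfl⟩
  | s + 1, a, b, h => by
    classical
    rcases h with h | ⟨c, h, hc⟩
    · obtain ⟨l, h1, h2, h3⟩ := exists_path_of_reach h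
      exact ⟨l, h1, h2, by omega⟩
    · obtain ⟨l, h1, h2, h3⟩ := exists_path_of_reach h
      by_cases hb : b ∈ a :: l
      · rcases List.mem_cons.1 hb with rfl | hb'
        · exact ⟨[], rfl, by simp, by simp⟩
        · obtain ⟨l₁, l₂, rfl⟩ := List.append_of_mem hb'
          have h1' : WalkL R a (l₁ ++ [b]) b := by
            rw [walkL_append] at h1 ⊢
            obtain ⟨c', hc1, hc2⟩ := h1
            exact ⟨c', hc1, hc2.1, rfl⟩
          refine ⟨l₁ ++ [b], h1', ?_, ?_⟩
          · have hsub : List.Sublist (a :: (l₁ ++ [b])) (a :: (l₁ ++ b :: l₂)) := by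
              apply List.Sublist.cons_cons
              exact List.Sublist.append (List.Sublist.refl _)
                (List.singleton_sublist.2 (List.mem_cons_self ..))
            exact h2.sublist hsub
          · simp only [List.length_append, List.length_cons, List.length_nil] at h3 ⊢
            omega
      · refine ⟨l ++ [b], ?_, ?_, ?_⟩
        · rw [walkL_append]
          exact ⟨c, h1, hc, rfl⟩
        · have : (a :: l ++ [b]).Nodup := by
            rw [List.nodup_append]
            refine ⟨h2, List.nodup_singleton b, ?_⟩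
            intro x hx y hy
            rw [List.mem_singleton] at hy
            subst hy
            exact fun hxy => hb (hxy ▸ hx)
          simpa using this
        · simp only [List.length_append, List.length_cons, List.length_nil]
          omega

/-! ### graphs given by edge lists, and the insertion property -/

/-- adjacency of an edge list -/
def Adj (L : List (V × V)) (a b : V) : Prop := (a, b) ∈ L ∨ (b, a) ∈ L

theorem adj_symm {L : List (V × V)} {a b : V} (h : Adj L a b) : Adj L b a := Or.symm h

theorem adj_cons {u w : V} {L : List (V × V)} {a b : V} :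
    Adj ((u, w) :: L) a b ↔ Adj L a b ∨ (a = u ∧ b = w) ∨ (a = w ∧ b = u) := by
  unfold Adj
  simp only [List.mem_cons, Prod.mk.injEq]
  tauto

/-- every edge, when added, joined two vertices not yet joined by `≤ t` hops -/
def IP (t : ℕ) : List (V × V) → Prop
  | [] => True
  | e :: L => IP t L ∧ ¬ Reach (Adj L) t e.1 e.2

theorem ip_irrefl (t : ℕ) : ∀ (L : List (V × V)), IP t L → ∀ a, ¬ Adj L a a
  | [], _, a => by simp [Adj]
  | (u, w) :: L, hIP, a => by
    obtain ⟨hIP', hnr⟩ := hIP
    intro h
    rcases adj_cons.1 h with h | ⟨rfl, rfl⟩ | ⟨rfl, rfl⟩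
    · exact ip_irrefl t L hIP' a h
    · exact hnr (reach_refl _ _ _)
    · exact hnr (reach_refl _ _ _)

/-- a simple path in the graph with one more edge either avoids the new edge or crosses it
exactly once -/
theorem split_new {u w : V} {L : List (V × V)} :
    ∀ {a b : V} {l : List V}, WalkL (Adj ((u, w) :: L)) a l b → (a :: l).Nodup →
      WalkL (Adj L) a l b ∨
      ∃ l₁ l₂ x y, l = l₁ ++ y :: l₂ ∧ WalkL (Adj L) a l₁ x ∧
        ((x = u ∧ y = w) ∨ (x = w ∧ y = u)) ∧ WalkL (Adj L) y l₂ b
  | _, _, [], h, _ => Or.inl h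
  | a, b, c :: l, h, hnd => by
    obtain ⟨hac, hw⟩ := h
    have hnd' : (c :: l).Nodup := (List.nodup_cons.1 hnd).2
    have hanot : a ∉ c :: l := (List.nodup_cons.1 hnd).1
    rcases split_new hw hnd' with h1 | ⟨l₁, l₂, x, y, rfl, h1, hxy, h2⟩
    · rcases adj_cons.1 hac with h0 | h0
      · exact Or.inl ⟨h0, h1⟩
      · exact Or.inr ⟨[], l, a, c, rfl, rfl, h0, h1⟩
    · have hx : x ∈ c :: (l₁ ++ y :: l₂) := by
        have hx' := WalkL.end_mem h1
        rcases List.mem_cons.1 hx' with rfl | hx''
        · exact List.mem_cons_self ..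
        · exact List.mem_cons_of_mem _ (List.mem_append_left _ hx'')
      have hy : y ∈ c :: (l₁ ++ y :: l₂) :=
        List.mem_cons_of_mem _ (List.mem_append_right _ (List.mem_cons_self ..))
      have hax : a ≠ x := fun h => hanot (h ▸ hx)
      have hay : a ≠ y := fun h => hanot (h ▸ hy)
      rcases adj_cons.1 hac with h0 | h0
      · exact Or.inr ⟨c :: l₁, l₂, x, y, rfl, ⟨h0, h1⟩, hxy, h2⟩
      · exfalso
        rcases h0 with ⟨h01, -⟩ | ⟨h01, -⟩ <;> rcases hxy with ⟨h1x, h1y⟩ | ⟨h1x, h1y⟩
        · exact hax (h01.trans h1x.symm)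
        · exact hay (h01.trans h1y.symm)
        · exact hay (h01.trans h1y.symm)
        · exact hax (h01.trans h1x.symm)

/-- **Uniqueness of short simple paths.** -/
theorem unique_path (t : ℕ) : ∀ (L : List (V × V)), IP t L →
    ∀ (a b : V) (l l' : List V), WalkL (Adj L) a l b → WalkL (Adj L) a l' b →
      (a :: l).Nodup → (a :: l').Nodup → l.length + l'.length ≤ t + 1 → l = l'
  | [], _ => by
    intro a b l l' h h' _ _ _
    have hnil : ∀ {a b : V} {l : List V}, WalkL (Adj ([] : List (V × V))) a l b → l = [] := by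
      intro a b l h
      cases l with
      | nil => rfl
      | cons c l => exact absurd h.1 (by simp [Adj])
    rw [hnil h, hnil h']
  | (u, w) :: L, hIP => by
    obtain ⟨hIP', hnr⟩ := hIP
    have IH := unique_path t L hIP'
    have hsymm : ∀ a b, Adj L a b → Adj L b a := fun a b h => adj_symm h
    have hnr' : ¬ Reach (Adj L) t u w := hnr
    have hnr'' : ¬ Reach (Adj L) t w u := fun h => hnr (reach_symm hsymm h)
    intro a b l l' h h' hnd hnd' hlen
    rcases split_new h hnd with h1 | ⟨l₁, l₂, x, y, rfl, h1, hxy, h2⟩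
    · rcases split_new h' hnd' with h1' | ⟨l₁', l₂', x', y', rfl, h1', hxy', h2'⟩
      · exact IH a b l l' h1 h1' hnd hnd' hlen
      · exfalso
        have r1 := reach_of_walkL h1'
        have r2 := reach_of_walkL h2'
        have r3 := reach_of_walkL h1
        have r : Reach (Adj L) (l₁'.length + l.length + l₂'.length) x' y' :=
          reach_trans (reach_trans (reach_symm hsymm r1) r3) (reach_symm hsymm r2)
        have hle : l₁'.length + l.length + l₂'.length ≤ t := by
          simp only [List.length_append, List.length_cons] at hlen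
          omega
        have r' := reach_mono_steps hle r
        rcases hxy' with ⟨hx, hy⟩ | ⟨hx, hy⟩
        · rw [hx, hy] at r'
          exact hnr' r'
        · rw [hx, hy] at r'
          exact hnr'' r'
    · rcases split_new h' hnd' with h1' | ⟨l₁', l₂', x', y', rfl, h1', hxy', h2'⟩
      · exfalso
        have r1 := reach_of_walkL h1
        have r2 := reach_of_walkL h2
        have r3 := reach_of_walkL h1'
        have r : Reach (Adj L) (l₁.length + l'.length + l₂.length) x y :=
          reach_trans (reach_trans (reach_symm hsymm r1) r3) (reach_symm hsymm r2)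
        have hle : l₁.length + l'.length + l₂.length ≤ t := by
          simp only [List.length_append, List.length_cons] at hlen
          omega
        have r' := reach_mono_steps hle r
        rcases hxy with ⟨hx, hy⟩ | ⟨hx, hy⟩
        · rw [hx, hy] at r'
          exact hnr' r'
        · rw [hx, hy] at r'
          exact hnr'' r'
      · simp only [List.length_append, List.length_cons] at hlen
        have huw : u ≠ w := fun h => hnr' (h ▸ reach_refl _ _ _)
        by_cases hsame : x = x'
        · have hy : y = y' := by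
            rcases hxy with ⟨hx, hy⟩ | ⟨hx, hy⟩ <;> rcases hxy' with ⟨hx', hy'⟩ | ⟨hx', hy'⟩
            · rw [hy, hy']
            · exact absurd (hx.symm.trans (hsame.trans hx')) huw
            · exact absurd (hx'.symm.trans (hsame.symm.trans hx)) huw
            · rw [hy, hy']
          subst hsame
          subst hy
          have hs1 : List.Sublist (a :: l₁) (a :: (l₁ ++ y :: l₂)) :=
            List.Sublist.cons_cons _ (List.sublist_append_left _ _)
          have hs1' : List.Sublist (a :: l₁') (a :: (l₁' ++ y :: l₂')) :=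
            List.Sublist.cons_cons _ (List.sublist_append_left _ _)
          have hs2 : List.Sublist (y :: l₂) (a :: (l₁ ++ y :: l₂)) :=
            (List.sublist_append_right l₁ (y :: l₂)).trans (List.sublist_cons_self a _)
          have hs2' : List.Sublist (y :: l₂') (a :: (l₁' ++ y :: l₂')) :=
            (List.sublist_append_right l₁' (y :: l₂')).trans (List.sublist_cons_self a _)
          have e1 : l₁ = l₁' := IH a x l₁ l₁' h1 h1' (hnd.sublist hs1) (hnd'.sublist hs1')
            (by omega)
          have e2 : l₂ = l₂' := IH y b l₂ l₂' h2 h2' (hnd.sublist hs2) (hnd'.sublist hs2')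
            (by omega)
          rw [e1, e2]
        · exfalso
          have r1 := reach_of_walkL h1
          have r1' := reach_of_walkL h1'
          have r : Reach (Adj L) (l₁.length + l₁'.length) x x' :=
            reach_trans (reach_symm hsymm r1) r1'
          have r' := reach_mono_steps (by omega : l₁.length + l₁'.length ≤ t) r
          rcases hxy with ⟨hx, hy⟩ | ⟨hx, hy⟩ <;> rcases hxy' with ⟨hx', hy'⟩ | ⟨hx', hy'⟩
          · exact hsame (hx.trans hx'.symm)
          · rw [hx, hx'] at r'
            exact hnr' r'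
          · rw [hx, hx'] at r'
            exact hnr'' r'
          · exact hsame (hx.trans hx'.symm)

/-! ### counting rooted simple paths -/

section Count

open Classical

/-- one-step extensions (inside `S`) of a rooted simple path, listed newest vertex first -/
noncomputable def ext (L : List (V × V)) (S : Finset V) : List V → Finset (List V)
  | [] => ∅
  | y :: l => (S.filter (fun z => Adj L z y ∧ z ∉ y :: l)).image (fun z => z :: y :: l)

/-- the rooted simple paths with `s` hops inside `S`, starting from `v` -/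
noncomputable def paths (L : List (V × V)) (S : Finset V) (v : V) : ℕ → Finset (List V)
  | 0 => {[v]}
  | s + 1 => (paths L S v s).biUnion (ext L S)

theorem mem_ext {L : List (V × V)} {S : Finset V} {y : V} {l r : List V} :
    r ∈ ext L S (y :: l) ↔ ∃ z, z ∈ S ∧ Adj L z y ∧ z ∉ y :: l ∧ r = z :: y :: l := by
  unfold ext
  simp only [Finset.mem_image, Finset.mem_filter]
  constructor
  · rintro ⟨z, ⟨h1, h2, h3⟩, rfl⟩
    exact ⟨z, h1, h2, h3, rfl⟩
  · rintro ⟨z, h1, h2, h3, rfl⟩
    exact ⟨z, ⟨h1, h2, h3⟩, rfl⟩

theorem paths_spec (L : List (V × V)) (S : Finset V) (v : V) (hv : v ∈ S) :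
    ∀ (s : ℕ) (r : List V), r ∈ paths L S v s →
      ∃ y l, r = y :: l ∧ y ∈ S ∧ WalkL (Adj L) y l v ∧ (y :: l).Nodup ∧ l.length = s
  | 0, r, hr => by
    have : r = [v] := by simpa [paths] using hr
    exact ⟨v, [], this, hv, rfl, by simp, rfl⟩
  | s + 1, r, hr => by
    simp only [paths, Finset.mem_biUnion] at hr
    obtain ⟨r₀, hr₀, hr⟩ := hr
    obtain ⟨y, l, rfl, hy, hw, hnd, hlen⟩ := paths_spec L S v hv s r₀ hr₀
    obtain ⟨z, hz, hzy, hznot, rfl⟩ := mem_ext.1 hr
    exact ⟨z, y :: l, rfl, hz, ⟨hzy, hw⟩, List.nodup_cons.2 ⟨hznot, hnd⟩, by simp [hlen]⟩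

theorem card_paths_succ (L : List (V × V)) (S : Finset V) (v : V) (s : ℕ) :
    (paths L S v (s + 1)).card = ∑ r ∈ paths L S v s, (ext L S r).card := by
  show ((paths L S v s).biUnion (ext L S)).card = _
  apply Finset.card_biUnion
  intro r₁ _ r₂ _ hne
  show Disjoint (ext L S r₁) (ext L S r₂)
  rw [Finset.disjoint_left]
  intro r h1 h2
  apply hne
  cases r₁ with
  | nil => simp [ext] at h1
  | cons y₁ l₁ =>
    cases r₂ with
    | nil => simp [ext] at h2
    | cons y₂ l₂ =>
      obtain ⟨z₁, -, -, -, e₁⟩ := mem_ext.1 h1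
      obtain ⟨z₂, -, -, -, e₂⟩ := mem_ext.1 h2
      rw [e₁] at e₂
      exact (List.cons.inj e₂).2

theorem card_ext (L : List (V × V)) (S : Finset V) (y : V) (l : List V) :
    (ext L S (y :: l)).card = (S.filter (fun z => Adj L z y ∧ z ∉ y :: l)).card := by
  unfold ext
  apply Finset.card_image_of_injective
  intro z z' h
  exact (List.cons.inj h).1

/-- a neighbour of the tip that lies on a short rooted simple path is the tip's predecessor -/
theorem nbr_on_path (t : ℕ) (L : List (V × V)) (hIP : IP t L) (y c v z : V) (l : List V)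
    (hw : WalkL (Adj L) y (c :: l) v) (hnd : (y :: c :: l).Nodup) (hlen : l.length + 2 ≤ t)
    (hz : Adj L z y) (hzl : z ∈ c :: l) : z = c := by
  obtain ⟨l₁, l₂, hl⟩ := List.append_of_mem hzl
  rw [hl] at hw hnd
  have hw1 : WalkL (Adj L) y (l₁ ++ [z]) z := by
    rw [walkL_append] at hw ⊢
    obtain ⟨c', hc1, hc2⟩ := hw
    exact ⟨c', hc1, hc2.1, rfl⟩
  have hw2 : WalkL (Adj L) y [z] z := ⟨adj_symm hz, rfl⟩
  have hsub : List.Sublist (y :: (l₁ ++ [z])) (y :: (l₁ ++ z :: l₂)) := by
    apply List.Sublist.cons_cons
    exact List.Sublist.append (List.Sublist.refl _)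
      (List.singleton_sublist.2 (List.mem_cons_self ..))
  have hnd1 : (y :: (l₁ ++ [z])).Nodup := hnd.sublist hsub
  have hyz : y ≠ z := by
    intro h
    have : y ∉ l₁ ++ z :: l₂ := (List.nodup_cons.1 hnd).1
    exact this (h ▸ List.mem_append_right _ (List.mem_cons_self ..))
  have hnd2 : (y :: [z]).Nodup := by simp [hyz]
  have hlen' : l₁.length + 1 + l₂.length = l.length + 1 := by
    have := congrArg List.length hl
    simp only [List.length_cons, List.length_append] at this
    omega
  have e := unique_path t L hIP y z (l₁ ++ [z]) [z] hw1 hw2 hnd1 hnd2 (by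
    simp only [List.length_append, List.length_cons, List.length_nil]
    omega)
  have hl₁ : l₁ = [] := by
    have := congrArg List.length e
    simp only [List.length_append, List.length_cons, List.length_nil] at this
    exact List.eq_nil_of_length_eq_zero (by omega)
  rw [hl₁] at hl
  exact ((List.cons.inj hl).1).symm

theorem card_ext_ge (t : ℕ) (L : List (V × V)) (hIP : IP t L) (S : Finset V) (v : V)
    (hdeg : ∀ y ∈ S, 3 ≤ (S.filter (fun z => Adj L z y)).card)
    (y : V) (hy : y ∈ S) (l : List V) (hw : WalkL (Adj L) y l v) (hnd : (y :: l).Nodup)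
    (hlen : l.length + 1 ≤ t) :
    2 ≤ (ext L S (y :: l)).card ∧ (l = [] → 3 ≤ (ext L S (y :: l)).card) := by
  rw [card_ext]
  have hirr := ip_irrefl t L hIP
  cases l with
  | nil =>
    have : S.filter (fun z => Adj L z y ∧ z ∉ [y]) = S.filter (fun z => Adj L z y) := by
      apply Finset.filter_congr
      intro z _
      constructor
      · exact fun h => h.1
      · intro h
        refine ⟨h, ?_⟩
        rw [List.mem_singleton]
        rintro rfl
        exact hirr _ h
    rw [this]
    have := hdeg y hy
    exact ⟨by omega, fun _ => this⟩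
  | cons c l =>
    have hsub : (S.filter (fun z => Adj L z y)).erase c ⊆
        S.filter (fun z => Adj L z y ∧ z ∉ y :: c :: l) := by
      intro z hz
      rw [Finset.mem_erase, Finset.mem_filter] at hz
      rw [Finset.mem_filter]
      refine ⟨hz.2.1, hz.2.2, ?_⟩
      intro hmem
      rcases List.mem_cons.1 hmem with rfl | hmem'
      · exact hirr _ hz.2.2
      · exact hz.1 (nbr_on_path t L hIP y c v z l hw hnd (by
          simp only [List.length_cons] at hlen
          omega) hz.2.2 hmem')
    have h1 := Finset.card_le_card hsub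
    have h2 := Finset.pred_card_le_card_erase (s := S.filter (fun z => Adj L z y)) (a := c)
    have h3 := hdeg y hy
    exact ⟨by omega, fun h => absurd h (by simp)⟩

theorem card_paths_ge (t κ : ℕ) (ht : 2 * κ ≤ t + 1) (L : List (V × V)) (hIP : IP t L)
    (S : Finset V) (v : V) (hv : v ∈ S)
    (hdeg : ∀ y ∈ S, 3 ≤ (S.filter (fun z => Adj L z y)).card) :
    ∀ s, s + 1 ≤ κ → 3 * 2 ^ s ≤ (paths L S v (s + 1)).card
  | 0, _ => by
    rw [card_paths_succ]
    have : paths L S v 0 = {[v]} := rfl
    rw [this, Finset.sum_singleton]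
    have h := (card_ext_ge t L hIP S v hdeg v hv [] rfl (by simp) (by
      simp only [List.length_nil]
      omega)).2 rfl
    simpa using h
  | s + 1, hs => by
    have ih := card_paths_ge t κ ht L hIP S v hv hdeg s (by omega)
    rw [card_paths_succ]
    have h2 : ∀ r ∈ paths L S v (s + 1), 2 ≤ (ext L S r).card := by
      intro r hr
      obtain ⟨y, l, rfl, hy, hw, hnd, hlen⟩ := paths_spec L S v hv (s + 1) r hr
      exact (card_ext_ge t L hIP S v hdeg y hy l hw hnd (by omega)).1
    have h3 : (paths L S v (s + 1)).card * 2 ≤ ∑ r ∈ paths L S v (s + 1), (ext L S r).card := by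
      have := Finset.card_nsmul_le_sum (paths L S v (s + 1)) (fun r => (ext L S r).card) 2 h2
      simpa [smul_eq_mul] using this
    calc 3 * 2 ^ (s + 1) = (3 * 2 ^ s) * 2 := by ring
      _ ≤ (paths L S v (s + 1)).card * 2 := Nat.mul_le_mul_right 2 ih
      _ ≤ _ := h3

/-- a sub-configuration of minimum degree three is large -/
theorem card_ge_of_min_deg (t κ : ℕ) (hκ : 1 ≤ κ) (ht : 2 * κ ≤ t + 1) (L : List (V × V))
    (hIP : IP t L) (S : Finset V) (v : V) (hv : v ∈ S)
    (hdeg : ∀ y ∈ S, 3 ≤ (S.filter (fun z => Adj L z y)).card) :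
    3 * 2 ^ (κ - 1) ≤ S.card := by
  obtain ⟨s, rfl⟩ : ∃ s, κ = s + 1 := ⟨κ - 1, by omega⟩
  have h1 := card_paths_ge t (s + 1) ht L hIP S v hv hdeg s le_rfl
  have h2 : (paths L S v (s + 1)).card ≤ S.card := by
    apply Finset.card_le_card_of_injOn (fun r => r.headD v)
    · intro r hr
      obtain ⟨y, l, rfl, hy, -, -, -⟩ := paths_spec L S v hv (s + 1) r hr
      simpa using hy
    · intro r hr r' hr' h
      obtain ⟨y, l, rfl, hy, hw, hnd, hlen⟩ := paths_spec L S v hv (s + 1) r hr
      obtain ⟨y', l', rfl, hy', hw', hnd', hlen'⟩ := paths_spec L S v hv (s + 1) r' hr'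
      have hyy : y = y' := by simpa using h
      subst hyy
      have := unique_path t L hIP y v l l' hw hw' hnd hnd' (by omega)
      rw [this]
  simpa using h1.trans h2

/-- **Sparsity.** If `|V| ≤ 2^κ` and `2 κ ≤ t + 1`, a set of ordered adjacent pairs inside
`S` has at most `4 |S|` elements. -/
theorem e2_le [Fintype V] (t κ : ℕ) (hκ : 1 ≤ κ) (ht : 2 * κ ≤ t + 1)
    (hV : Fintype.card V ≤ 2 ^ κ)
    (L : List (V × V)) (hIP : IP t L) :
    ∀ (S : Finset V) (T : Finset (V × V)),
      (∀ e ∈ T, e.1 ∈ S ∧ e.2 ∈ S ∧ Adj L e.1 e.2) → T.card ≤ 4 * S.card := by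
  intro S
  induction S using Finset.strongInduction with
  | H S ih =>
    intro T hT
    by_cases hex : ∃ y₀ ∈ S, (S.filter (fun z => Adj L z y₀)).card ≤ 2
    · obtain ⟨y₀, hy₀, hdeg⟩ := hex
      have hss : S.erase y₀ ⊂ S := Finset.erase_ssubset hy₀
      have h1 := ih (S.erase y₀) hss (T.filter (fun e => e.1 ≠ y₀ ∧ e.2 ≠ y₀)) (by
        intro e he
        rw [Finset.mem_filter] at he
        obtain ⟨h1, h2, h3⟩ := hT e he.1
        exact ⟨Finset.mem_erase.2 ⟨he.2.1, h1⟩, Finset.mem_erase.2 ⟨he.2.2, h2⟩, h3⟩)
      have h2 : (T.filter (fun e => e.1 = y₀)).card ≤ (S.filter (fun z => Adj L z y₀)).card := by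
        apply Finset.card_le_card_of_injOn (fun e => e.2)
        · intro e he
          rw [Finset.mem_coe, Finset.mem_filter] at he
          obtain ⟨h1, h2, h3⟩ := hT e he.1
          rw [Finset.mem_coe, Finset.mem_filter]
          exact ⟨h2, adj_symm (he.2 ▸ h3)⟩
        · intro e he e' he' h
          rw [Finset.mem_coe, Finset.mem_filter] at he he'
          exact Prod.ext (he.2.trans he'.2.symm) h
      have h3 : (T.filter (fun e => e.2 = y₀)).card ≤ (S.filter (fun z => Adj L z y₀)).card := by
        apply Finset.card_le_card_of_injOn (fun e => e.1)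
        · intro e he
          rw [Finset.mem_coe, Finset.mem_filter] at he
          obtain ⟨h1, h2, h3⟩ := hT e he.1
          rw [Finset.mem_coe, Finset.mem_filter]
          exact ⟨h1, he.2 ▸ h3⟩
        · intro e he e' he' h
          rw [Finset.mem_coe, Finset.mem_filter] at he he'
          exact Prod.ext h (he.2.trans he'.2.symm)
      have hcover : T ⊆ T.filter (fun e => e.1 ≠ y₀ ∧ e.2 ≠ y₀) ∪
          (T.filter (fun e => e.1 = y₀) ∪ T.filter (fun e => e.2 = y₀)) := by
        intro e he
        simp only [Finset.mem_union, Finset.mem_filter]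
        by_cases h1 : e.1 = y₀
        · exact Or.inr (Or.inl ⟨he, h1⟩)
        · by_cases h2 : e.2 = y₀
          · exact Or.inr (Or.inr ⟨he, h2⟩)
          · exact Or.inl ⟨he, h1, h2⟩
      have h4 := Finset.card_le_card hcover
      have h5 := Finset.card_union_le (T.filter (fun e => e.1 ≠ y₀ ∧ e.2 ≠ y₀))
        (T.filter (fun e => e.1 = y₀) ∪ T.filter (fun e => e.2 = y₀))
      have h6 := Finset.card_union_le (T.filter (fun e => e.1 = y₀))
        (T.filter (fun e => e.2 = y₀))
      have h7 : (S.erase y₀).card + 1 = S.card := Finset.card_erase_add_one hy₀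
      omega
    · push Not at hex
      rcases S.eq_empty_or_nonempty with rfl | ⟨v, hv⟩
      · have : T = ∅ := by
          apply Finset.eq_empty_of_forall_notMem
          intro e he
          exact absurd (hT e he).1 (by simp)
        simp [this]
      · exfalso
        have h1 := card_ge_of_min_deg t κ hκ ht L hIP S v hv (fun y hy => hex y hy)
        have h2 : S.card ≤ Fintype.card V := Finset.card_le_univ S
        obtain ⟨s, rfl⟩ : ∃ s, κ = s + 1 := ⟨κ - 1, by omega⟩
        have h3 : 2 ^ (s + 1) = 2 * 2 ^ s := by ring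
        have h4 : 0 < 2 ^ s := Nat.pos_of_ne_zero (by positivity)
        simp only [Nat.add_sub_cancel] at h1
        omega

end Count

end Vale.Agent.Lib.P249.H75.Girth
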