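import Vale.Agent.Lib.P249.helper75.Girth

/-!
# P249: the greedy hop graph

Processing the pairs of a finite metric-like configuration in order of increasing key
(distance) and adding a pair only when its endpoints are not yet joined by `≤ t` hops gives
a graph `L` with the insertion property `IP t L`, in which every pair `(a,b)` is joined by
a simple path of at most `t` hops, each hop of key at most the key of `(a,b)`.
-/

namespace Vale.Agent.Lib.P249.H75.Girth

open Classical

variable {V : Type*}

/-- the greedy graph; the pairs are processed from the last element of the list to the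
first -/
noncomputable def greedy (t : ℕ) : List (V × V) → List (V × V)
  | [] => []
  | e :: ps => if Reach (Adj (greedy t ps)) t e.1 e.2 then greedy t ps else e :: greedy t ps

theorem greedy_cons_pos (t : ℕ) (e : V × V) (ps : List (V × V))
    (h : Reach (Adj (greedy t ps)) t e.1 e.2) : greedy t (e :: ps) = greedy t ps := by
  show (if Reach (Adj (greedy t ps)) t e.1 e.2 then greedy t ps else e :: greedy t ps) = _
  rw [if_pos h]

theorem greedy_cons_neg (t : ℕ) (e : V × V) (ps : List (V × V))
    (h : ¬ Reach (Adj (greedy t ps)) t e.1 e.2) : greedy t (e :: ps) = e :: greedy t ps := by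
  show (if Reach (Adj (greedy t ps)) t e.1 e.2 then greedy t ps else e :: greedy t ps) = _
  rw [if_neg h]

theorem greedy_IP (t : ℕ) : ∀ ps : List (V × V), IP t (greedy t ps)
  | [] => trivial
  | e :: ps => by
    by_cases h : Reach (Adj (greedy t ps)) t e.1 e.2
    · rw [greedy_cons_pos t e ps h]
      exact greedy_IP t ps
    · rw [greedy_cons_neg t e ps h]
      exact ⟨greedy_IP t ps, h⟩

theorem greedy_subset (t : ℕ) : ∀ (ps : List (V × V)) (e : V × V), e ∈ greedy t ps → e ∈ ps
  | [], e, h => by
    have : greedy t ([] : List (V × V)) = [] := rfl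
    rw [this] at h
    exact h
  | e₀ :: ps, e, h => by
    by_cases h0 : Reach (Adj (greedy t ps)) t e₀.1 e₀.2
    · rw [greedy_cons_pos t e₀ ps h0] at h
      exact List.mem_cons_of_mem _ (greedy_subset t ps e h)
    · rw [greedy_cons_neg t e₀ ps h0] at h
      rcases List.mem_cons.1 h with rfl | h
      · exact List.mem_cons_self ..
      · exact List.mem_cons_of_mem _ (greedy_subset t ps e h)

theorem greedy_mono (t : ℕ) (e₀ : V × V) (ps : List (V × V)) (e : V × V)
    (he : e ∈ greedy t ps) : e ∈ greedy t (e₀ :: ps) := by
  by_cases h0 : Reach (Adj (greedy t ps)) t e₀.1 e₀.2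
  · rw [greedy_cons_pos t e₀ ps h0]
    exact he
  · rw [greedy_cons_neg t e₀ ps h0]
    exact List.mem_cons_of_mem _ he

theorem greedy_reach (t : ℕ) (ht : 1 ≤ t) (key : V → V → ℝ)
    (hsymm : ∀ a b, key a b = key b a) :
    ∀ ps : List (V × V), ps.Pairwise (fun e e' => key e'.1 e'.2 ≤ key e.1 e.2) →
      ∀ e ∈ ps, Reach (fun a b => Adj (greedy t ps) a b ∧ key a b ≤ key e.1 e.2) t e.1 e.2
  | [], _, e, he => by simp at he
  | e₀ :: ps, hsorted, e, he => by
    rw [List.pairwise_cons] at hsorted
    obtain ⟨hle, hsorted'⟩ := hsorted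
    rcases List.mem_cons.1 he with rfl | he'
    · by_cases h0 : Reach (Adj (greedy t ps)) t e.1 e.2
      · rw [greedy_cons_pos t e ps h0]
        apply reach_mono_rel _ h0
        intro a b hab
        refine ⟨hab, ?_⟩
        rcases hab with hab | hab
        · exact hle (a, b) (greedy_subset t ps _ hab)
        · have := hle (b, a) (greedy_subset t ps _ hab)
          rw [hsymm a b]
          exact this
      · rw [greedy_cons_neg t e ps h0]
        apply reach_mono_steps ht
        apply reach_one
        exact ⟨Or.inl (List.mem_cons_self ..), le_rfl⟩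
    · have ih := greedy_reach t ht key hsymm ps hsorted' e he'
      apply reach_mono_rel _ ih
      intro a b hab
      exact ⟨Or.imp (greedy_mono t e₀ ps _) (greedy_mono t e₀ ps _) hab.1, hab.2⟩

/-- an enumeration of all pairs by decreasing key -/
theorem exists_sorted_enum [Fintype V] (key : V × V → ℝ) :
    ∃ ps : List (V × V), (∀ e, e ∈ ps) ∧ ps.Pairwise (fun e e' => key e' ≤ key e) := by
  have H : ∀ (T : Finset (V × V)), ∃ ps : List (V × V), (∀ e, e ∈ ps ↔ e ∈ T) ∧
      ps.Pairwise (fun e e' => key e' ≤ key e) := by
    intro T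
    induction T using Finset.strongInduction with
    | H T ih =>
      rcases T.eq_empty_or_nonempty with rfl | hne
      · exact ⟨[], by simp, List.Pairwise.nil⟩
      · obtain ⟨e₀, he₀, hmax⟩ := Finset.exists_max_image T key hne
        obtain ⟨ps, hps, hsorted⟩ := ih (T.erase e₀) (Finset.erase_ssubset he₀)
        refine ⟨e₀ :: ps, ?_, ?_⟩
        · intro e
          rw [List.mem_cons, hps, Finset.mem_erase]
          constructor
          · rintro (rfl | h)
            · exact he₀
            · exact h.2
          · intro h
            by_cases he : e = e₀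
            · exact Or.inl he
            · exact Or.inr ⟨he, h⟩
        · rw [List.pairwise_cons]
          refine ⟨?_, hsorted⟩
          intro e he
          exact hmax e (Finset.mem_of_mem_erase ((hps e).1 he))
  obtain ⟨ps, hps, hsorted⟩ := H Finset.univ
  exact ⟨ps, fun e => (hps e).2 (Finset.mem_univ e), hsorted⟩

/-- **The hop graph.** For a symmetric key on a finite set `V` with `|V| ≤ 2^κ`, `κ ≥ 1`,
there is a graph with at most `4 |V|` ordered adjacent pairs in which every pair `(a,b)` is
joined by a simple path of at most `2 κ - 1` hops, each of key at most `key a b`. -/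
theorem exists_hop_graph [Fintype V] (key : V → V → ℝ) (hsymm : ∀ a b, key a b = key b a)
    (κ : ℕ) (hκ : 1 ≤ κ) (hV : Fintype.card V ≤ 2 ^ κ) :
    ∃ L : List (V × V),
      (∀ T : Finset (V × V), (∀ e ∈ T, Adj L e.1 e.2) → T.card ≤ 4 * Fintype.card V) ∧
      (∀ a b, ∃ l, WalkL (fun x y => Adj L x y ∧ key x y ≤ key a b) a l b ∧
        (a :: l).Nodup ∧ l.length ≤ 2 * κ - 1) := by
  obtain ⟨ps, hall, hsorted⟩ := exists_sorted_enum (V := V) (fun e => key e.1 e.2)
  refine ⟨greedy (2 * κ - 1) ps, ?_, ?_⟩
  · intro T hT
    have h := e2_le (2 * κ - 1) κ hκ (by omega) hV (greedy (2 * κ - 1) ps)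
      (greedy_IP _ ps) Finset.univ T (fun e he => ⟨Finset.mem_univ _, Finset.mem_univ _, hT e he⟩)
    simpa using h
  · intro a b
    have h := greedy_reach (2 * κ - 1) (by omega) key hsymm ps hsorted (a, b) (hall (a, b))
    exact exists_path_of_reach h

end Vale.Agent.Lib.P249.H75.Girth
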