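import Mathlib

/-!
Nearest-neighbour weights and the log-free bound on the total pairwise sensitivity
(after a paper proof by helper59; independent formalization by helper75).
-/

namespace Vale.Agent.Lib.P249.H75.KNN

open Finset

variable {V : Type*} [Fintype V] [DecidableEq V]

/-- Nearest-neighbour sets: for every centre `x` and size `K` there is a set of exactly
`min K (card V)` points such that every point of the set is at least as close to `x` as every
point outside. -/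
theorem exists_nn (d : V → V → ℝ) (x : V) (K : ℕ) :
    ∃ S : Finset V, S.card = min K (Fintype.card V) ∧
      ∀ y, y ∉ S → ∀ z, z ∈ S → d x z ≤ d x y := by
  classical
  have hne : (Finset.powersetCard (min K (Fintype.card V)) (Finset.univ : Finset V)).Nonempty := by
    apply Finset.powersetCard_nonempty.2
    rw [Finset.card_univ]
    exact min_le_right _ _
  obtain ⟨S, hS, hmin⟩ := Finset.exists_min_image _ (fun S : Finset V => ∑ z ∈ S, d x z) hne
  have hcard : S.card = min K (Fintype.card V) := (Finset.mem_powersetCard.1 hS).2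
  refine ⟨S, hcard, ?_⟩
  intro y hy z hz
  by_contra hlt
  have hlt := not_le.1 hlt
  have hyz : y ∉ S.erase z := fun h => hy (Finset.mem_of_mem_erase h)
  have hS' : insert y (S.erase z) ∈
      Finset.powersetCard (min K (Fintype.card V)) (Finset.univ : Finset V) := by
    rw [Finset.mem_powersetCard]
    refine ⟨Finset.subset_univ _, ?_⟩
    rw [Finset.card_insert_of_notMem hyz, Finset.card_erase_of_mem hz, hcard]
    have : 0 < S.card := Finset.card_pos.2 ⟨z, hz⟩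
    omega
  have h1 := hmin _ hS'
  rw [Finset.sum_insert hyz] at h1
  have h2 : ∑ z' ∈ S.erase z, d x z' + d x z = ∑ z' ∈ S, d x z' :=
    Finset.sum_erase_add _ _ hz
  linarith

omit [Fintype V] [DecidableEq V] in
/-- Claim 1: if some nearest-neighbour set of the family misses a point at distance `≤ R0` from
its centre `x0`, then the set of every centre `z` within `R1` of `x0` lies in the ball of radius
`R1 + R0` about `z`. -/
theorem nn_ball (d : V → V → ℝ) (dtri : ∀ x y z, d x z ≤ d x y + d y z)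
    (S : V → Finset V) (c : ℕ) (hS1 : ∀ x, (S x).card = c)
    (hS2 : ∀ x y, y ∉ S x → ∀ z, z ∈ S x → d x z ≤ d x y)
    (x0 y0 : V) (hy0 : y0 ∉ S x0) (R0 R1 : ℝ) (h0 : d x0 y0 ≤ R0)
    (z : V) (hz : d z x0 ≤ R1) (w : V) (hw : w ∈ S z) : d z w ≤ R1 + R0 := by
  by_contra h
  have hu : ∀ u ∈ S x0, d z u ≤ R1 + R0 := fun u hu =>
    (dtri z x0 u).trans (add_le_add hz ((hS2 x0 y0 hy0 u hu).trans h0))
  have hw0 : w ∉ S x0 := fun hh => h (hu w hh)
  have hns : ¬ S x0 ⊆ S z := by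
    intro hsub
    have heq : S x0 = S z := Finset.eq_of_subset_of_card_le hsub (by rw [hS1, hS1])
    exact hw0 (heq ▸ hw)
  obtain ⟨u, hu1, hu2⟩ := Finset.not_subset.1 hns
  exact h ((hS2 z u hu2 w hw).trans (hu u hu1))

/-- The sum of an indicator weight over a set of the right size is one. -/
theorem sum_ite_card (S : Finset V) (a : ℝ) (h : (S.card : ℝ) * a = 1) :
    ∑ y, (if y ∈ S then a else 0) = 1 := by
  rw [Finset.sum_ite_mem, Finset.univ_inter, Finset.sum_const, nsmul_eq_mul, h]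

/-- One averaging step of the nearest-neighbour walk keeps a probability vector, moves the support
by at most the radius of the sets and flattens the vector. -/
theorem walk_step (d : V → V → ℝ) (dtri : ∀ x y z, d x z ≤ d x y + d y z) (c : V)
    (μ : V → ℝ) (h0 : ∀ x, 0 ≤ μ x) (h1 : ∑ x, μ x = 1) (σ : ℝ)
    (hsupp : ∀ x, μ x ≠ 0 → d c x ≤ σ)
    (S : V → Finset V) (a : ℝ) (ha : 0 ≤ a) (hc : ∀ x, ((S x).card : ℝ) * a = 1) (R : ℝ)
    (hball : ∀ z, d c z ≤ σ → ∀ w ∈ S z, d z w ≤ R) :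
    (∀ y, 0 ≤ ∑ x, μ x * (if y ∈ S x then a else 0)) ∧
      (∑ y, ∑ x, μ x * (if y ∈ S x then a else 0) = 1) ∧
      (∀ y, (∑ x, μ x * (if y ∈ S x then a else 0)) ≠ 0 → d c y ≤ σ + R) ∧
      (∀ y, ∑ x, μ x * (if y ∈ S x then a else 0) ≤ a) := by
  refine ⟨?_, ?_, ?_, ?_⟩
  · intro y
    refine Finset.sum_nonneg (fun x _ => mul_nonneg (h0 x) ?_)
    split_ifs
    · exact ha
    · exact le_rfl
  · rw [Finset.sum_comm]
    have : ∀ x, ∑ y, μ x * (if y ∈ S x then a else 0) = μ x := by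
      intro x
      rw [← Finset.mul_sum, sum_ite_card (S x) a (hc x), mul_one]
    rw [Finset.sum_congr rfl (fun x _ => this x), h1]
  · intro y hy
    obtain ⟨x, -, hx⟩ := Finset.exists_ne_zero_of_sum_ne_zero hy
    have hμx : μ x ≠ 0 := left_ne_zero_of_mul hx
    have hyS : y ∈ S x := by
      by_contra hn
      rw [if_neg hn, mul_zero] at hx
      exact hx rfl
    have hcx := hsupp x hμx
    exact (dtri c x y).trans (add_le_add hcx (hball x hcx y hyS))
  · intro y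
    calc ∑ x, μ x * (if y ∈ S x then a else 0) ≤ ∑ x, μ x * a := by
          refine Finset.sum_le_sum (fun x _ => mul_le_mul_of_nonneg_left ?_ (h0 x))
          split_ifs
          · exact le_rfl
          · exact ha
      _ = a := by rw [← Finset.sum_mul, h1, one_mul]

/-- The change of an expectation under one averaging step, written as an average of
differences. -/
theorem step_expect (μ g : V → ℝ) (S : V → Finset V) (a : ℝ)
    (hc : ∀ x, ((S x).card : ℝ) * a = 1) :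
    ∑ x, ∑ y, μ x * (if y ∈ S x then a else 0) * (g y - g x) =
      ∑ y, (∑ x, μ x * (if y ∈ S x then a else 0)) * g y - ∑ x, μ x * g x := by
  have e1 : ∑ x, ∑ y, μ x * (if y ∈ S x then a else 0) * (g y - g x) =
      ∑ x, ∑ y, μ x * (if y ∈ S x then a else 0) * g y -
        ∑ x, ∑ y, μ x * (if y ∈ S x then a else 0) * g x := by
    rw [← Finset.sum_sub_distrib]
    refine Finset.sum_congr rfl (fun x _ => ?_)
    rw [← Finset.sum_sub_distrib]
    refine Finset.sum_congr rfl (fun y _ => ?_)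
    ring
  have e2 : ∑ x, ∑ y, μ x * (if y ∈ S x then a else 0) * g y =
      ∑ y, (∑ x, μ x * (if y ∈ S x then a else 0)) * g y := by
    rw [Finset.sum_comm]
    refine Finset.sum_congr rfl (fun y _ => ?_)
    rw [Finset.sum_mul]
  have e3 : ∑ x, ∑ y, μ x * (if y ∈ S x then a else 0) * g x = ∑ x, μ x * g x := by
    refine Finset.sum_congr rfl (fun x _ => ?_)
    have : ∑ y, μ x * (if y ∈ S x then a else 0) * g x =
        μ x * g x * ∑ y, (if y ∈ S x then a else 0) := by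
      rw [Finset.mul_sum]
      refine Finset.sum_congr rfl (fun y _ => ?_)
      ring
    rw [this, sum_ite_card (S x) a (hc x), mul_one]
  rw [e1, e2, e3]

omit [DecidableEq V] in
/-- Jensen transfer: an average of differences of `g` over pairs at distance `≤ R`, whose
weights are dominated by `M` times the weights `φ`, is controlled by the `φ`-weighted sum of the
ratios. -/
theorem jensen_transfer (d : V → V → ℝ) (q : ℝ) (hq : 1 ≤ q) (φ r : V → V → ℝ) (g : V → ℝ)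
    (hφ : ∀ x y, 0 ≤ φ x y) (hr : ∀ x y, 0 ≤ r x y) (hd : ∀ x y, 0 ≤ d x y)
    (hgr : ∀ x y, |g x - g y| ^ q ≤ d x y ^ q * r x y)
    (w : V → V → ℝ) (hw0 : ∀ x y, 0 ≤ w x y) (hw1 : ∑ x, ∑ y, w x y = 1)
    (R M : ℝ) (hR : 0 ≤ R) (hM : 0 ≤ M)
    (hsupp : ∀ x y, w x y ≠ 0 → d x y ≤ R ∧ w x y ≤ M * φ x y) :
    |∑ x, ∑ y, w x y * (g y - g x)| ^ q ≤ M * R ^ q * ∑ x, ∑ y, φ x y * r x y := by
  have hq0 : 0 ≤ q := by linarith
  have h1 : |∑ x, ∑ y, w x y * (g y - g x)| ≤ ∑ x, ∑ y, w x y * |g y - g x| := by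
    refine (Finset.abs_sum_le_sum_abs _ _).trans (Finset.sum_le_sum (fun x _ => ?_))
    refine (Finset.abs_sum_le_sum_abs _ _).trans (Finset.sum_le_sum (fun y _ => ?_))
    rw [abs_mul, abs_of_nonneg (hw0 x y)]
  have h2 : (∑ x, ∑ y, w x y * |g y - g x|) ^ q ≤ ∑ x, ∑ y, w x y * |g y - g x| ^ q := by
    have hJ := (convexOn_rpow hq).map_sum_le (t := (Finset.univ : Finset (V × V)))
      (w := fun e : V × V => w e.1 e.2) (p := fun e : V × V => |g e.2 - g e.1|)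
      (fun e _ => hw0 e.1 e.2) (by rw [Fintype.sum_prod_type]; exact hw1)
      (fun e _ => Set.mem_Ici.2 (abs_nonneg _))
    simp only [smul_eq_mul] at hJ
    rw [Fintype.sum_prod_type, Fintype.sum_prod_type] at hJ
    exact hJ
  have h3 : ∀ x y, w x y * |g y - g x| ^ q ≤ M * R ^ q * (φ x y * r x y) := by
    intro x y
    by_cases hw : w x y = 0
    · rw [hw, zero_mul]
      exact mul_nonneg (mul_nonneg hM (Real.rpow_nonneg hR _)) (mul_nonneg (hφ x y) (hr x y))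
    · obtain ⟨hdR, hwM⟩ := hsupp x y hw
      have ha : |g y - g x| ^ q ≤ R ^ q * r x y := by
        rw [abs_sub_comm]
        exact (hgr x y).trans
          (mul_le_mul_of_nonneg_right (Real.rpow_le_rpow (hd x y) hdR hq0) (hr x y))
      calc w x y * |g y - g x| ^ q ≤ (M * φ x y) * (R ^ q * r x y) :=
            mul_le_mul hwM ha (Real.rpow_nonneg (abs_nonneg _) _)
              (mul_nonneg hM (hφ x y))
        _ = M * R ^ q * (φ x y * r x y) := by ring
  calc |∑ x, ∑ y, w x y * (g y - g x)| ^ q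
      ≤ (∑ x, ∑ y, w x y * |g y - g x|) ^ q := Real.rpow_le_rpow (abs_nonneg _) h1 hq0
    _ ≤ ∑ x, ∑ y, w x y * |g y - g x| ^ q := h2
    _ ≤ ∑ x, ∑ y, M * R ^ q * (φ x y * r x y) :=
        Finset.sum_le_sum (fun x _ => Finset.sum_le_sum (fun y _ => h3 x y))
    _ = M * R ^ q * ∑ x, ∑ y, φ x y * r x y := by
        rw [Finset.mul_sum]
        refine Finset.sum_congr rfl (fun x _ => ?_)
        rw [Finset.mul_sum]

/-! ### Real arithmetic -/


theorem pow_rpow_comm (a : ℝ) (ha : 0 ≤ a) (k : ℕ) (q : ℝ) : (a ^ k) ^ q = (a ^ q) ^ k := by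
  rw [← Real.rpow_natCast, ← Real.rpow_mul ha, mul_comm, Real.rpow_mul ha, Real.rpow_natCast]

theorem step_arith (q : ℝ) (hq : 1 ≤ q) (L ρ τ T : ℝ)
    (hL : 2 * (5 : ℝ) ^ q * (2 : ℝ) ^ q ≤ L) (hρ : 0 ≤ ρ) (hτ0 : 0 ≤ τ) (hτ : τ ^ q = T)
    (k : ℕ) :
    ((2 : ℝ) ^ (k + 1) * (L ^ k)⁻¹) * (2 * ρ * 5 ^ k) ^ q * T ≤
      (4 * ρ * (1 / 2) ^ k * τ) ^ q := by
  have hb : (0 : ℝ) < (5 : ℝ) ^ q := Real.rpow_pos_of_pos (by norm_num) _
  have ht : (0 : ℝ) < (2 : ℝ) ^ q := Real.rpow_pos_of_pos (by norm_num) _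
  have h2q : (2 : ℝ) ≤ (2 : ℝ) ^ q := by
    have := Real.rpow_le_rpow_of_exponent_le (by norm_num : (1 : ℝ) ≤ 2) hq
    simpa using this
  have hLpos : (0 : ℝ) < L := lt_of_lt_of_le (by positivity) hL
  have hT0 : 0 ≤ T := by rw [← hτ]; exact Real.rpow_nonneg hτ0 _
  have hA : 0 ≤ (2 * ρ) ^ q := Real.rpow_nonneg (by positivity) _
  have e1 : (2 * ρ * 5 ^ k) ^ q = (2 * ρ) ^ q * ((5 : ℝ) ^ q) ^ k := by
    rw [Real.mul_rpow (by positivity) (by positivity), pow_rpow_comm 5 (by norm_num)]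
  have e2 : (4 * ρ * (1 / 2) ^ k * τ) ^ q =
      (2 : ℝ) ^ q * (2 * ρ) ^ q * (((2 : ℝ) ^ q)⁻¹) ^ k * T := by
    have : 4 * ρ * (1 / 2 : ℝ) ^ k * τ = 2 * (2 * ρ) * (1 / 2 : ℝ) ^ k * τ := by ring
    rw [this, Real.mul_rpow (by positivity) hτ0, Real.mul_rpow (by positivity) (by positivity),
      Real.mul_rpow (by norm_num) (by positivity), pow_rpow_comm (1 / 2) (by norm_num), hτ,
      one_div, Real.inv_rpow (by norm_num)]
  have hratio : 2 * (5 : ℝ) ^ q / L ≤ ((2 : ℝ) ^ q)⁻¹ := by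
    rw [div_le_iff₀ hLpos]
    calc 2 * (5 : ℝ) ^ q = ((2 : ℝ) ^ q)⁻¹ * (2 * (5 : ℝ) ^ q * (2 : ℝ) ^ q) := by
          field_simp
      _ ≤ ((2 : ℝ) ^ q)⁻¹ * L := mul_le_mul_of_nonneg_left hL (inv_nonneg.2 ht.le)
  have hcore : (2 : ℝ) ^ (k + 1) * (L ^ k)⁻¹ * ((5 : ℝ) ^ q) ^ k ≤
      (2 : ℝ) ^ q * (((2 : ℝ) ^ q)⁻¹) ^ k := by
    have e : (2 : ℝ) ^ (k + 1) * (L ^ k)⁻¹ * ((5 : ℝ) ^ q) ^ k = 2 * (2 * (5 : ℝ) ^ q / L) ^ k := by
      rw [div_pow, mul_pow, pow_succ]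
      field_simp
    rw [e]
    have hp : (2 * (5 : ℝ) ^ q / L) ^ k ≤ (((2 : ℝ) ^ q)⁻¹) ^ k :=
      pow_le_pow_left₀ (by positivity) hratio k
    have hp0 : 0 ≤ (((2 : ℝ) ^ q)⁻¹) ^ k := by positivity
    nlinarith
  rw [e1, e2]
  calc (2 : ℝ) ^ (k + 1) * (L ^ k)⁻¹ * ((2 * ρ) ^ q * ((5 : ℝ) ^ q) ^ k) * T
      = ((2 : ℝ) ^ (k + 1) * (L ^ k)⁻¹ * ((5 : ℝ) ^ q) ^ k) * ((2 * ρ) ^ q * T) := by ring
    _ ≤ ((2 : ℝ) ^ q * (((2 : ℝ) ^ q)⁻¹) ^ k) * ((2 * ρ) ^ q * T) :=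
        mul_le_mul_of_nonneg_right hcore (mul_nonneg hA hT0)
    _ = (2 : ℝ) ^ q * (2 * ρ) ^ q * (((2 : ℝ) ^ q)⁻¹) ^ k * T := by ring

theorem meet_arith (q : ℝ) (hq : 1 ≤ q) (L ρ τ T : ℝ)
    (hL : 2 * (5 : ℝ) ^ q * (2 : ℝ) ^ q ≤ L) (hL' : L ≤ 2 * (10 : ℝ) ^ q + 1) (hρ : 0 ≤ ρ)
    (hτ0 : 0 ≤ τ) (hτ : τ ^ q = T) (k : ℕ) :
    ((2 : ℝ) ^ (k + 1) * L ^ (k + 1) * ((L ^ k)⁻¹ * (L ^ k)⁻¹)) * (ρ * 5 ^ k) ^ q * T ≤
      (60 * ρ * τ) ^ q := by
  have hb : (0 : ℝ) < (5 : ℝ) ^ q := Real.rpow_pos_of_pos (by norm_num) _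
  have ht : (0 : ℝ) < (2 : ℝ) ^ q := Real.rpow_pos_of_pos (by norm_num) _
  have h2q : (2 : ℝ) ≤ (2 : ℝ) ^ q := by
    have := Real.rpow_le_rpow_of_exponent_le (by norm_num : (1 : ℝ) ≤ 2) hq
    simpa using this
  have h6q : (6 : ℝ) ≤ (6 : ℝ) ^ q := by
    have := Real.rpow_le_rpow_of_exponent_le (by norm_num : (1 : ℝ) ≤ 6) hq
    simpa using this
  have h10q : (10 : ℝ) ≤ (10 : ℝ) ^ q := by
    have := Real.rpow_le_rpow_of_exponent_le (by norm_num : (1 : ℝ) ≤ 10) hq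
    simpa using this
  have hLpos : (0 : ℝ) < L := lt_of_lt_of_le (by positivity) hL
  have hT0 : 0 ≤ T := by rw [← hτ]; exact Real.rpow_nonneg hτ0 _
  have hA : 0 ≤ ρ ^ q := Real.rpow_nonneg hρ _
  have e1 : (ρ * 5 ^ k) ^ q = ρ ^ q * ((5 : ℝ) ^ q) ^ k := by
    rw [Real.mul_rpow hρ (by positivity), pow_rpow_comm 5 (by norm_num)]
  have e2 : (60 * ρ * τ) ^ q = (60 : ℝ) ^ q * ρ ^ q * T := by
    rw [Real.mul_rpow (by positivity) hτ0, Real.mul_rpow (by norm_num) hρ, hτ]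
  have h60 : (60 : ℝ) ^ q = (6 : ℝ) ^ q * (10 : ℝ) ^ q := by
    rw [← Real.mul_rpow (by norm_num) (by norm_num)]
    norm_num
  have hratio : 2 * (5 : ℝ) ^ q / L ≤ 1 := by
    rw [div_le_one hLpos]
    nlinarith
  have hcore : (2 : ℝ) ^ (k + 1) * L ^ (k + 1) * ((L ^ k)⁻¹ * (L ^ k)⁻¹) * ((5 : ℝ) ^ q) ^ k ≤
      (60 : ℝ) ^ q := by
    have e : (2 : ℝ) ^ (k + 1) * L ^ (k + 1) * ((L ^ k)⁻¹ * (L ^ k)⁻¹) * ((5 : ℝ) ^ q) ^ k =
        2 * L * (2 * (5 : ℝ) ^ q / L) ^ k := by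
      rw [div_pow, mul_pow, pow_succ, pow_succ]
      field_simp
    rw [e]
    have hp : (2 * (5 : ℝ) ^ q / L) ^ k ≤ 1 := pow_le_one₀ (by positivity) hratio
    have h2L : 2 * L ≤ (60 : ℝ) ^ q := by
      rw [h60]
      nlinarith
    calc 2 * L * (2 * (5 : ℝ) ^ q / L) ^ k ≤ 2 * L * 1 :=
          mul_le_mul_of_nonneg_left hp (by positivity)
      _ ≤ (60 : ℝ) ^ q := by linarith
  rw [e1, e2]
  calc (2 : ℝ) ^ (k + 1) * L ^ (k + 1) * ((L ^ k)⁻¹ * (L ^ k)⁻¹) * (ρ ^ q * ((5 : ℝ) ^ q) ^ k) * T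
      = ((2 : ℝ) ^ (k + 1) * L ^ (k + 1) * ((L ^ k)⁻¹ * (L ^ k)⁻¹) * ((5 : ℝ) ^ q) ^ k) *
          (ρ ^ q * T) := by ring
    _ ≤ (60 : ℝ) ^ q * (ρ ^ q * T) := mul_le_mul_of_nonneg_right hcore (mul_nonneg hA hT0)
    _ = (60 : ℝ) ^ q * ρ ^ q * T := by ring

/-- The nearest-neighbour walk started at `c`: at step `k + 1` every point spreads its mass
uniformly over its set of `L ^ (k + 1)` nearest neighbours. -/
noncomputable def walk (S : ℕ → V → Finset V) (L : ℕ) (c : V) : ℕ → V → ℝ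
  | 0 => fun y => if y = c then 1 else 0
  | (k + 1) => fun y =>
      ∑ x, walk S L c k x * (if y ∈ S (L ^ (k + 1)) x then ((L : ℝ) ^ (k + 1))⁻¹ else 0)

theorem walk_zero (S : ℕ → V → Finset V) (L : ℕ) (c y : V) :
    walk S L c 0 y = if y = c then 1 else 0 := rfl

theorem walk_succ (S : ℕ → V → Finset V) (L : ℕ) (c : V) (k : ℕ) (y : V) :
    walk S L c (k + 1) y =
      ∑ x, walk S L c k x * (if y ∈ S (L ^ (k + 1)) x then ((L : ℝ) ^ (k + 1))⁻¹ else 0) := rfl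

/-- **Theorem A** (log-free sensitivity bound for an arbitrary pseudometric).  There are weights
`φ ≥ 0` on ordered pairs, of total mass at most the number of points, such that for every
function `g` the ratio `|g i - g j| ^ q / d i j ^ q` of every pair is at most `76 ^ q` times the
`φ`-weighted sum of the ratios. -/
theorem knn_main (d : V → V → ℝ) (d0 : ∀ x, d x x = 0) (dsymm : ∀ x y, d x y = d y x)
    (dtri : ∀ x y z, d x z ≤ d x y + d y z) (q : ℝ) (hq : 1 ≤ q) :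
    ∃ φ : V → V → ℝ, (∀ x y, 0 ≤ φ x y) ∧ (∑ x, ∑ y, φ x y ≤ Fintype.card V) ∧
      ∀ (g : V → ℝ) (r : V → V → ℝ), (∀ x y, 0 ≤ r x y) →
        (∀ x y, |g x - g y| ^ q ≤ d x y ^ q * r x y) →
        ∀ i j, |g i - g j| ^ q ≤ (76 : ℝ) ^ q * d i j ^ q * ∑ x, ∑ y, φ x y * r x y := by
  classical
  have hq0 : 0 < q := by linarith
  have hd : ∀ x y, 0 ≤ d x y := by
    intro x y
    have h := dtri x y x
    rw [d0, dsymm y x] at h
    linarith
  -- the branching number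
  have h10 : (10 : ℝ) ≤ (10 : ℝ) ^ q := by
    have := Real.rpow_le_rpow_of_exponent_le (by norm_num : (1 : ℝ) ≤ 10) hq
    simpa using this
  obtain ⟨L, hL1, hL2⟩ : ∃ L : ℕ, 2 * (10 : ℝ) ^ q ≤ L ∧ (L : ℝ) ≤ 2 * (10 : ℝ) ^ q + 1 :=
    ⟨⌈2 * (10 : ℝ) ^ q⌉₊, Nat.le_ceil _, (Nat.ceil_lt_add_one (by positivity)).le⟩
  have hLpos : (0 : ℝ) < L := by linarith
  have hL2' : 2 ≤ L := by
    have : (2 : ℝ) ≤ L := by linarith
    exact_mod_cast this
  have hLk : ∀ k : ℕ, (0 : ℝ) < (L : ℝ) ^ k := fun k => pow_pos hLpos k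
  have h10q : (10 : ℝ) ^ q = (2 : ℝ) ^ q * (5 : ℝ) ^ q := by
    rw [← Real.mul_rpow (by norm_num) (by norm_num)]
    norm_num
  have hkey : 2 * (5 : ℝ) ^ q * (2 : ℝ) ^ q ≤ L := by
    rw [h10q] at hL1
    linarith
  choose S hS1 hS2 using fun (K : ℕ) (x : V) => exists_nn d x K
  obtain ⟨n, hn⟩ : ∃ n : ℕ, n = Fintype.card V := ⟨_, rfl⟩
  rw [← hn] at hS1
  -- the weights
  obtain ⟨φ, hφdef⟩ : ∃ φ : V → V → ℝ, ∀ x y, φ x y = ∑ t ∈ Finset.range n,
      (if y ∈ S (L ^ (t + 1)) x then ((2 : ℝ) ^ (t + 1) * (L : ℝ) ^ (t + 1))⁻¹ else 0) :=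
    ⟨_, fun _ _ => rfl⟩
  have hwpos : ∀ t : ℕ, 0 < ((2 : ℝ) ^ (t + 1) * (L : ℝ) ^ (t + 1))⁻¹ := fun t =>
    inv_pos.2 (mul_pos (by positivity) (hLk _))
  have hφ0 : ∀ x y, 0 ≤ φ x y := by
    intro x y
    rw [hφdef]
    refine Finset.sum_nonneg (fun t _ => ?_)
    split_ifs
    · exact (hwpos t).le
    · exact le_rfl
  have hφge : ∀ t, t < n → ∀ x y, y ∈ S (L ^ (t + 1)) x →
      ((2 : ℝ) ^ (t + 1) * (L : ℝ) ^ (t + 1))⁻¹ ≤ φ x y := by
    intro t ht x y hy
    rw [hφdef]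
    have h := Finset.single_le_sum (s := Finset.range n)
      (f := fun t => (if y ∈ S (L ^ (t + 1)) x then
        ((2 : ℝ) ^ (t + 1) * (L : ℝ) ^ (t + 1))⁻¹ else 0))
      (fun t _ => by
        show 0 ≤ (if y ∈ S (L ^ (t + 1)) x then
          ((2 : ℝ) ^ (t + 1) * (L : ℝ) ^ (t + 1))⁻¹ else 0)
        split_ifs
        · exact (hwpos t).le
        · exact le_rfl) (Finset.mem_range.2 ht)
    have h' : (if y ∈ S (L ^ (t + 1)) x then
        ((2 : ℝ) ^ (t + 1) * (L : ℝ) ^ (t + 1))⁻¹ else 0) ≤ ∑ t ∈ Finset.range n,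
        (if y ∈ S (L ^ (t + 1)) x then ((2 : ℝ) ^ (t + 1) * (L : ℝ) ^ (t + 1))⁻¹ else 0) := h
    rwa [if_pos hy] at h'
  have hφsum : ∑ x, ∑ y, φ x y ≤ Fintype.card V := by
    have hrow : ∀ x, ∑ y, φ x y ≤ 1 := by
      intro x
      have hterm : ∀ t, ∑ y, (if y ∈ S (L ^ (t + 1)) x then
          ((2 : ℝ) ^ (t + 1) * (L : ℝ) ^ (t + 1))⁻¹ else 0) ≤ (1 / 2) * (1 / 2 : ℝ) ^ t := by
        intro t
        rw [Finset.sum_ite_mem, Finset.univ_inter, Finset.sum_const, nsmul_eq_mul, hS1]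
        have hmin : ((min (L ^ (t + 1)) n : ℕ) : ℝ) ≤ (L : ℝ) ^ (t + 1) := by
          have : min (L ^ (t + 1)) n ≤ L ^ (t + 1) := min_le_left _ _
          exact_mod_cast this
        have hLt := hLk (t + 1)
        calc ((min (L ^ (t + 1)) n : ℕ) : ℝ) * ((2 : ℝ) ^ (t + 1) * (L : ℝ) ^ (t + 1))⁻¹
            ≤ (L : ℝ) ^ (t + 1) * ((2 : ℝ) ^ (t + 1) * (L : ℝ) ^ (t + 1))⁻¹ :=
              mul_le_mul_of_nonneg_right hmin (hwpos t).le
          _ = (1 / 2) * (1 / 2 : ℝ) ^ t := by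
              rw [mul_inv, pow_succ (2 : ℝ) t, one_div, inv_pow]
              field_simp
      calc ∑ y, φ x y = ∑ y, ∑ t ∈ Finset.range n, (if y ∈ S (L ^ (t + 1)) x then
              ((2 : ℝ) ^ (t + 1) * (L : ℝ) ^ (t + 1))⁻¹ else 0) :=
            Finset.sum_congr rfl (fun y _ => hφdef x y)
        _ = ∑ t ∈ Finset.range n, ∑ y, (if y ∈ S (L ^ (t + 1)) x then
              ((2 : ℝ) ^ (t + 1) * (L : ℝ) ^ (t + 1))⁻¹ else 0) := Finset.sum_comm
        _ ≤ ∑ t ∈ Finset.range n, (1 / 2) * (1 / 2 : ℝ) ^ t :=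
            Finset.sum_le_sum (fun t _ => hterm t)
        _ = (1 / 2) * ∑ t ∈ Finset.range n, (1 / 2 : ℝ) ^ t := by rw [Finset.mul_sum]
        _ ≤ (1 / 2) * 2 := mul_le_mul_of_nonneg_left (sum_geometric_two_le n) (by norm_num)
        _ = 1 := by norm_num
    calc ∑ x, ∑ y, φ x y ≤ ∑ _x : V, (1 : ℝ) := Finset.sum_le_sum (fun x _ => hrow x)
      _ = Fintype.card V := by simp
  refine ⟨φ, hφ0, hφsum, ?_⟩
  intro g r hr hgr i j
  obtain ⟨T, hT⟩ : ∃ T : ℝ, T = ∑ x, ∑ y, φ x y * r x y := ⟨_, rfl⟩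
  rw [← hT]
  have hT0 : 0 ≤ T := by
    rw [hT]
    exact Finset.sum_nonneg (fun x _ => Finset.sum_nonneg (fun y _ =>
      mul_nonneg (hφ0 x y) (hr x y)))
  rcases (hd i j).eq_or_lt with h0 | hρ
  · have h := hgr i j
    rw [← h0, Real.zero_rpow hq0.ne', zero_mul] at h
    exact h.trans (mul_nonneg (mul_nonneg (Real.rpow_nonneg (by norm_num) _)
      (Real.rpow_nonneg (hd i j) _)) hT0)
  obtain ⟨ρ, hρdef⟩ : ∃ ρ : ℝ, ρ = d i j := ⟨_, rfl⟩
  rw [← hρdef] at hρ ⊢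
  -- the radii
  obtain ⟨σ, hσ⟩ : ∃ σ : ℕ → ℝ, ∀ k, σ k = ρ * ((5 : ℝ) ^ k - 1) / 2 := ⟨_, fun _ => rfl⟩
  have hσ0 : σ 0 = 0 := by
    rw [hσ]
    norm_num
  have hσs : ∀ k, σ k + 2 * ρ * 5 ^ k = σ (k + 1) := by
    intro k
    rw [hσ, hσ, pow_succ]
    ring
  have hσnn : ∀ k, 0 ≤ σ k := by
    intro k
    rw [hσ]
    have h1 : (1 : ℝ) ≤ 5 ^ k := one_le_pow₀ (by norm_num)
    have h2 : 0 ≤ ρ * ((5 : ℝ) ^ k - 1) := mul_nonneg hρ.le (by linarith)
    linarith
  have hn1 : 1 ≤ n := by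
    rw [hn]
    exact Fintype.card_pos_iff.2 ⟨i⟩
  -- the first level at which the two sides see each other
  have hlast : ∀ x y, d i x ≤ σ (n - 1) → d j y ≤ σ (n - 1) → y ∈ S (L ^ (n - 1 + 1)) x := by
    intro x y _ _
    have hlt : n < L ^ (n - 1 + 1) := by
      rw [Nat.sub_add_cancel hn1]
      exact lt_of_lt_of_le Nat.lt_two_pow_self (Nat.pow_le_pow_left hL2' n)
    have hcard : (S (L ^ (n - 1 + 1)) x).card = Fintype.card V := by
      rw [hS1, ← hn]
      exact min_eq_right hlt.le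
    rw [(Finset.card_eq_iff_eq_univ _).1 hcard]
    exact Finset.mem_univ y
  have hex : ∃ k, ∀ x y, d i x ≤ σ k → d j y ≤ σ k → y ∈ S (L ^ (k + 1)) x := ⟨n - 1, hlast⟩
  obtain ⟨ks, hks⟩ : ∃ ks, ks = Nat.find hex := ⟨_, rfl⟩
  have hLarge : ∀ x y, d i x ≤ σ ks → d j y ≤ σ ks → y ∈ S (L ^ (ks + 1)) x := by
    rw [hks]
    exact Nat.find_spec hex
  have hksn : ks < n := by
    have h : ks ≤ n - 1 := by
      rw [hks]
      exact Nat.find_min' hex hlast
    omega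
  have hsmall : ∀ k, k < ks →
      (∀ x, ((S (L ^ (k + 1)) x).card : ℝ) * ((L : ℝ) ^ (k + 1))⁻¹ = 1) ∧
      (∀ z, (d i z ≤ σ k ∨ d j z ≤ σ k) → ∀ w ∈ S (L ^ (k + 1)) z, d z w ≤ 2 * ρ * 5 ^ k) := by
    intro k hk
    have hnot := Nat.find_min hex (by rw [← hks]; exact hk)
    simp only [not_forall] at hnot
    obtain ⟨x0, y0, hx0, hy0, hy0S⟩ := hnot
    have hKn : L ^ (k + 1) < n := by
      by_contra hge
      have hge := not_lt.1 hge
      have hcard : (S (L ^ (k + 1)) x0).card = Fintype.card V := by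
        rw [hS1, ← hn]
        exact min_eq_right hge
      rw [(Finset.card_eq_iff_eq_univ _).1 hcard] at hy0S
      exact hy0S (Finset.mem_univ y0)
    have hcardK : ∀ x, (S (L ^ (k + 1)) x).card = L ^ (k + 1) := by
      intro x
      rw [hS1]
      exact min_eq_left hKn.le
    refine ⟨fun x => ?_, ?_⟩
    · rw [hcardK]
      push_cast
      exact mul_inv_cancel₀ (hLk _).ne'
    · intro z hz w hw
      have hx0y0 : d x0 y0 ≤ 2 * σ k + ρ := by
        have h1 := dtri x0 i y0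
        have h2 := dtri i j y0
        rw [dsymm x0 i] at h1
        rw [← hρdef] at h2
        linarith
      have hzx0 : d z x0 ≤ 2 * σ k + ρ := by
        rcases hz with hz | hz
        · have h1 := dtri z i x0
          rw [dsymm z i] at h1
          linarith [hσnn k]
        · have h1 := dtri z j x0
          have h2 := dtri j i x0
          rw [dsymm z j] at h1
          rw [dsymm j i, ← hρdef] at h2
          linarith
      have h := nn_ball d dtri (S (L ^ (k + 1))) (L ^ (k + 1)) hcardK (hS2 (L ^ (k + 1)))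
        x0 y0 hy0S (2 * σ k + ρ) (2 * σ k + ρ) hx0y0 z hzx0 w hw
      have e : 2 * σ k + ρ + (2 * σ k + ρ) = 2 * ρ * 5 ^ k := by
        rw [hσ]
        ring
      linarith
  -- the two walks
  have hwalk : ∀ c, (c = i ∨ c = j) → ∀ k, k ≤ ks →
      (∀ x, 0 ≤ walk S L c k x) ∧ (∑ x, walk S L c k x = 1) ∧
      (∀ x, walk S L c k x ≠ 0 → d c x ≤ σ k) ∧ (∀ x, walk S L c k x ≤ ((L : ℝ) ^ k)⁻¹) := by
    intro c hc k
    induction k with
    | zero =>
      intro _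
      refine ⟨fun x => ?_, ?_, fun x hx => ?_, fun x => ?_⟩
      · rw [walk_zero]
        split_ifs <;> norm_num
      · simp only [walk_zero]
        rw [Finset.sum_ite_eq']
        simp
      · rw [walk_zero] at hx
        have hxc : x = c := by
          by_contra hne
          exact hx (if_neg hne)
        rw [hxc, d0, hσ0]
      · rw [walk_zero, pow_zero, inv_one]
        split_ifs <;> norm_num
    | succ k ih =>
      intro hk
      obtain ⟨p0, p1, p2, p3⟩ := ih (by omega)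
      obtain ⟨hcard, hball⟩ := hsmall k (by omega)
      have hball' : ∀ z, d c z ≤ σ k → ∀ w ∈ S (L ^ (k + 1)) z, d z w ≤ 2 * ρ * 5 ^ k := by
        intro z hz
        rcases hc with rfl | rfl
        · exact hball z (Or.inl hz)
        · exact hball z (Or.inr hz)
      obtain ⟨s0, s1, s2, s3⟩ := walk_step d dtri c (walk S L c k) p0 p1 (σ k) p2
        (S (L ^ (k + 1))) ((L : ℝ) ^ (k + 1))⁻¹ (inv_nonneg.2 (hLk _).le) hcard
        (2 * ρ * 5 ^ k) hball'
      refine ⟨s0, s1, fun y hy => ?_, s3⟩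
      rw [← hσs k]
      exact s2 y hy
  -- Claim 3: one step
  have hstep : ∀ c, (c = i ∨ c = j) → ∀ k, k < ks →
      |∑ x, walk S L c (k + 1) x * g x - ∑ x, walk S L c k x * g x| ^ q ≤
        ((2 : ℝ) ^ (k + 1) * ((L : ℝ) ^ k)⁻¹) * (2 * ρ * 5 ^ k) ^ q * T := by
    intro c hc k hk
    obtain ⟨p0, p1, p2, p3⟩ := hwalk c hc k hk.le
    obtain ⟨hcard, hball⟩ := hsmall k hk
    have hE := step_expect (walk S L c k) g (S (L ^ (k + 1))) ((L : ℝ) ^ (k + 1))⁻¹ hcard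
    have hJ := jensen_transfer d q hq φ r g hφ0 hr hd hgr
      (fun x y => walk S L c k x *
        (if y ∈ S (L ^ (k + 1)) x then ((L : ℝ) ^ (k + 1))⁻¹ else 0))
      (fun x y => mul_nonneg (p0 x) (by
        split_ifs
        · exact inv_nonneg.2 (hLk _).le
        · exact le_rfl))
      (by
        have : ∀ x, ∑ y, walk S L c k x *
            (if y ∈ S (L ^ (k + 1)) x then ((L : ℝ) ^ (k + 1))⁻¹ else 0) = walk S L c k x := by
          intro x
          rw [← Finset.mul_sum, sum_ite_card _ _ (hcard x), mul_one]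
        rw [Finset.sum_congr rfl (fun x _ => this x), p1])
      (2 * ρ * 5 ^ k) ((2 : ℝ) ^ (k + 1) * ((L : ℝ) ^ k)⁻¹) (by positivity)
      (mul_nonneg (by positivity) (inv_nonneg.2 (hLk _).le))
      (by
        intro x y hw
        have hμx : walk S L c k x ≠ 0 := left_ne_zero_of_mul hw
        have hyS : y ∈ S (L ^ (k + 1)) x := by
          by_contra hn
          rw [if_neg hn, mul_zero] at hw
          exact hw rfl
        have hcx := p2 x hμx
        have hcx' : d i x ≤ σ k ∨ d j x ≤ σ k := by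
          rcases hc with rfl | rfl
          · exact Or.inl hcx
          · exact Or.inr hcx
        refine ⟨hball x hcx' y hyS, ?_⟩
        rw [if_pos hyS]
        have hφ := hφge k (by omega) x y hyS
        have hLk1 := hLk k
        have hLk2 := hLk (k + 1)
        calc walk S L c k x * ((L : ℝ) ^ (k + 1))⁻¹
            ≤ ((L : ℝ) ^ k)⁻¹ * ((L : ℝ) ^ (k + 1))⁻¹ :=
              mul_le_mul_of_nonneg_right (p3 x) (inv_nonneg.2 hLk2.le)
          _ = (2 : ℝ) ^ (k + 1) * ((L : ℝ) ^ k)⁻¹ *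
                ((2 : ℝ) ^ (k + 1) * (L : ℝ) ^ (k + 1))⁻¹ := by
              field_simp
          _ ≤ (2 : ℝ) ^ (k + 1) * ((L : ℝ) ^ k)⁻¹ * φ x y :=
              mul_le_mul_of_nonneg_left hφ
                (mul_nonneg (by positivity) (inv_nonneg.2 hLk1.le)))
    rw [hE, ← hT] at hJ
    exact hJ
  -- Claim 4: the meeting
  have hmeet : |∑ y, walk S L j ks y * g y - ∑ x, walk S L i ks x * g x| ^ q ≤
      ((2 : ℝ) ^ (ks + 1) * (L : ℝ) ^ (ks + 1) * (((L : ℝ) ^ ks)⁻¹ * ((L : ℝ) ^ ks)⁻¹)) *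
        (ρ * 5 ^ ks) ^ q * T := by
    obtain ⟨a0, a1, a2, a3⟩ := hwalk i (Or.inl rfl) ks le_rfl
    obtain ⟨b0, b1, b2, b3⟩ := hwalk j (Or.inr rfl) ks le_rfl
    have hLk1 := hLk ks
    have hLk2 := hLk (ks + 1)
    have hM : 0 ≤ (2 : ℝ) ^ (ks + 1) * (L : ℝ) ^ (ks + 1) *
        (((L : ℝ) ^ ks)⁻¹ * ((L : ℝ) ^ ks)⁻¹) :=
      mul_nonneg (mul_nonneg (by positivity) hLk2.le)
        (mul_nonneg (inv_nonneg.2 hLk1.le) (inv_nonneg.2 hLk1.le))
    have hJ := jensen_transfer d q hq φ r g hφ0 hr hd hgr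
      (fun x y => walk S L i ks x * walk S L j ks y)
      (fun x y => mul_nonneg (a0 x) (b0 y))
      (by rw [← Finset.sum_mul_sum, a1, b1, mul_one])
      (ρ * 5 ^ ks) ((2 : ℝ) ^ (ks + 1) * (L : ℝ) ^ (ks + 1) *
        (((L : ℝ) ^ ks)⁻¹ * ((L : ℝ) ^ ks)⁻¹)) (by positivity) hM
      (by
        intro x y hw
        have hμx : walk S L i ks x ≠ 0 := left_ne_zero_of_mul hw
        have hνy : walk S L j ks y ≠ 0 := right_ne_zero_of_mul hw
        have hix := a2 x hμx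
        have hjy := b2 y hνy
        refine ⟨?_, ?_⟩
        · have h1 := dtri x i y
          have h2 := dtri i j y
          rw [dsymm x i] at h1
          rw [← hρdef] at h2
          have e : 2 * σ ks + ρ = ρ * 5 ^ ks := by
            rw [hσ]
            ring
          linarith
        · have hφ := hφge ks hksn x y (hLarge x y hix hjy)
          calc walk S L i ks x * walk S L j ks y
              ≤ ((L : ℝ) ^ ks)⁻¹ * ((L : ℝ) ^ ks)⁻¹ :=
                mul_le_mul (a3 x) (b3 y) (b0 y) (inv_nonneg.2 hLk1.le)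
            _ = (2 : ℝ) ^ (ks + 1) * (L : ℝ) ^ (ks + 1) *
                  (((L : ℝ) ^ ks)⁻¹ * ((L : ℝ) ^ ks)⁻¹) *
                  ((2 : ℝ) ^ (ks + 1) * (L : ℝ) ^ (ks + 1))⁻¹ := by
                field_simp
            _ ≤ (2 : ℝ) ^ (ks + 1) * (L : ℝ) ^ (ks + 1) *
                  (((L : ℝ) ^ ks)⁻¹ * ((L : ℝ) ^ ks)⁻¹) * φ x y :=
                mul_le_mul_of_nonneg_left hφ hM)
    have hE : ∑ x, ∑ y, walk S L i ks x * walk S L j ks y * (g y - g x) =
        ∑ y, walk S L j ks y * g y - ∑ x, walk S L i ks x * g x := by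
      have e1 : ∀ x, ∑ y, walk S L i ks x * walk S L j ks y * (g y - g x) =
          walk S L i ks x * (∑ y, walk S L j ks y * g y) - walk S L i ks x * g x := by
        intro x
        have e0 : ∀ y, walk S L i ks x * walk S L j ks y * (g y - g x) =
            walk S L i ks x * (walk S L j ks y * g y) -
              walk S L i ks x * g x * walk S L j ks y := fun y => by ring
        rw [Finset.sum_congr rfl (fun y _ => e0 y), Finset.sum_sub_distrib, ← Finset.mul_sum,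
          ← Finset.mul_sum, b1, mul_one]
      rw [Finset.sum_congr rfl (fun x _ => e1 x), Finset.sum_sub_distrib, ← Finset.sum_mul, a1,
        one_mul]
    rw [hE, ← hT] at hJ
    exact hJ
  -- taking roots
  obtain ⟨τ, hτ0, hτ⟩ : ∃ τ : ℝ, 0 ≤ τ ∧ τ ^ q = T :=
    ⟨T ^ q⁻¹, Real.rpow_nonneg hT0 _, Real.rpow_inv_rpow hT0 hq0.ne'⟩
  have hstep' : ∀ c, (c = i ∨ c = j) → ∀ k, k < ks →
      |∑ x, walk S L c (k + 1) x * g x - ∑ x, walk S L c k x * g x| ≤
        4 * ρ * (1 / 2) ^ k * τ := by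
    intro c hc k hk
    have h := (hstep c hc k hk).trans (step_arith q hq L ρ τ T hkey hρ.le hτ0 hτ k)
    exact (Real.rpow_le_rpow_iff (abs_nonneg _) (by positivity) hq0).1 h
  have hside : ∀ c, (c = i ∨ c = j) → |∑ x, walk S L c ks x * g x - g c| ≤ 8 * ρ * τ := by
    intro c hc
    have h0 : ∑ x, walk S L c 0 x * g x = g c := by
      simp only [walk_zero]
      simp
    have htel : ∑ k ∈ Finset.range ks,
        (∑ x, walk S L c (k + 1) x * g x - ∑ x, walk S L c k x * g x) =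
        ∑ x, walk S L c ks x * g x - g c := by
      rw [Finset.sum_range_sub (fun k => ∑ x, walk S L c k x * g x), h0]
    rw [← htel]
    calc |∑ k ∈ Finset.range ks,
          (∑ x, walk S L c (k + 1) x * g x - ∑ x, walk S L c k x * g x)|
        ≤ ∑ k ∈ Finset.range ks,
          |∑ x, walk S L c (k + 1) x * g x - ∑ x, walk S L c k x * g x| :=
          Finset.abs_sum_le_sum_abs _ _
      _ ≤ ∑ k ∈ Finset.range ks, 4 * ρ * (1 / 2) ^ k * τ :=
          Finset.sum_le_sum (fun k hk => hstep' c hc k (Finset.mem_range.1 hk))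
      _ = 4 * ρ * τ * ∑ k ∈ Finset.range ks, (1 / 2 : ℝ) ^ k := by
          rw [Finset.mul_sum]
          exact Finset.sum_congr rfl (fun k _ => by ring)
      _ ≤ 4 * ρ * τ * 2 :=
          mul_le_mul_of_nonneg_left (sum_geometric_two_le ks) (by positivity)
      _ = 8 * ρ * τ := by ring
  have hmeet' : |∑ y, walk S L j ks y * g y - ∑ x, walk S L i ks x * g x| ≤ 60 * ρ * τ := by
    have h := hmeet.trans (meet_arith q hq L ρ τ T hkey hL2 hρ.le hτ0 hτ ks)
    exact (Real.rpow_le_rpow_iff (abs_nonneg _) (by positivity) hq0).1 h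
  have hfin : |g i - g j| ≤ 76 * ρ * τ := by
    have hi := abs_le.1 (hside i (Or.inl rfl))
    have hj := abs_le.1 (hside j (Or.inr rfl))
    have hm := abs_le.1 hmeet'
    rw [abs_le]
    constructor <;> linarith [hi.1, hi.2, hj.1, hj.2, hm.1, hm.2]
  calc |g i - g j| ^ q ≤ (76 * ρ * τ) ^ q := Real.rpow_le_rpow (abs_nonneg _) hfin hq0.le
    _ = (76 : ℝ) ^ q * ρ ^ q * T := by
        rw [Real.mul_rpow (by positivity) hτ0, Real.mul_rpow (by norm_num) hρ.le, hτ]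

/-- **Log-free total pairwise sensitivity.**  For any `n` points of `ℝ^m` and `q ≥ 1` there are
coordinate weights `s k ≥ 0` with `|x a k - x b k| ^ q ≤ s k * ∑ k', |x a k' - x b k'| ^ q` for
all pairs and all coordinates, and `∑ k, s k ≤ 76 ^ q * n`. -/
theorem sens_knn (q : ℝ) (hq : 1 ≤ q) :
    ∀ (n m : ℕ) (x : Fin n → Fin m → ℝ),
      ∃ s : Fin m → ℝ, (∀ k, 0 ≤ s k) ∧
        (∀ k a b, |x a k - x b k| ^ q ≤ s k * ∑ k', |x a k' - x b k'| ^ q) ∧
        ∑ k, s k ≤ (76 : ℝ) ^ q * n := by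
  intro n m x
  have hq0 : 0 < q := by linarith
  obtain ⟨D, hD⟩ : ∃ D : Fin n → Fin n → ℝ, ∀ a b, D a b = ∑ k', |x a k' - x b k'| ^ q :=
    ⟨_, fun _ _ => rfl⟩
  have hD0 : ∀ a b, 0 ≤ D a b := fun a b => by
    rw [hD]
    exact Finset.sum_nonneg (fun k _ => Real.rpow_nonneg (abs_nonneg _) _)
  have hDterm : ∀ a b k, |x a k - x b k| ^ q ≤ D a b := fun a b k => by
    rw [hD]
    exact Finset.single_le_sum (f := fun k' => |x a k' - x b k'| ^ q)
      (fun k' _ => Real.rpow_nonneg (abs_nonneg _) _) (Finset.mem_univ k)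
  obtain ⟨d, hd⟩ : ∃ d : Fin n → Fin n → ℝ, ∀ a b, d a b = D a b ^ (1 / q) :=
    ⟨_, fun _ _ => rfl⟩
  have hdq : ∀ a b, d a b ^ q = D a b := fun a b => by
    rw [hd, ← Real.rpow_mul (hD0 a b), one_div, inv_mul_cancel₀ hq0.ne', Real.rpow_one]
  have d0 : ∀ a, d a a = 0 := fun a => by
    rw [hd, hD]
    simp only [sub_self, abs_zero]
    rw [Real.zero_rpow hq0.ne', Finset.sum_const_zero, Real.zero_rpow (one_div_ne_zero hq0.ne')]
  have dsymm : ∀ a b, d a b = d b a := fun a b => by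
    rw [hd, hd, hD, hD]
    congr 1
    exact Finset.sum_congr rfl (fun k _ => by rw [abs_sub_comm])
  have dtri : ∀ a b c, d a c ≤ d a b + d b c := fun a b c => by
    rw [hd, hd, hd, hD, hD, hD]
    have h := Real.Lp_add_le (Finset.univ : Finset (Fin m)) (fun k => x a k - x b k)
      (fun k => x b k - x c k) hq
    have e : ∀ k, x a k - x b k + (x b k - x c k) = x a k - x c k := fun k => by ring
    simp only [e] at h
    exact h
  obtain ⟨φ, hφ0, hφsum, hmain⟩ := knn_main d d0 dsymm dtri q hq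
  have h76 : (0 : ℝ) ≤ (76 : ℝ) ^ q := Real.rpow_nonneg (by norm_num) _
  refine ⟨fun k => (76 : ℝ) ^ q * ∑ a, ∑ b, φ a b * (|x a k - x b k| ^ q / D a b), ?_, ?_, ?_⟩
  · intro k
    refine mul_nonneg h76 (Finset.sum_nonneg (fun a _ => Finset.sum_nonneg (fun b _ =>
      mul_nonneg (hφ0 a b) (div_nonneg (Real.rpow_nonneg (abs_nonneg _) _) (hD0 a b)))))
  · intro k i j
    have h := hmain (fun a => x a k) (fun a b => |x a k - x b k| ^ q / D a b)
      (fun a b => div_nonneg (Real.rpow_nonneg (abs_nonneg _) _) (hD0 a b))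
      (fun a b => by
        rw [hdq]
        rcases (hD0 a b).eq_or_lt with h0 | hpos
        · rw [← h0, zero_mul]
          have := hDterm a b k
          rw [← h0] at this
          exact this
        · rw [mul_div_cancel₀ _ hpos.ne']) i j
    rw [hdq, hD] at h
    calc |x i k - x j k| ^ q
        ≤ (76 : ℝ) ^ q * (∑ k', |x i k' - x j k'| ^ q) *
          ∑ a, ∑ b, φ a b * (|x a k - x b k| ^ q / D a b) := h
      _ = (76 : ℝ) ^ q * (∑ a, ∑ b, φ a b * (|x a k - x b k| ^ q / D a b)) *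
          ∑ k', |x i k' - x j k'| ^ q := by ring
  · rw [← Finset.mul_sum]
    have hswap : ∑ k, ∑ a, ∑ b, φ a b * (|x a k - x b k| ^ q / D a b) =
        ∑ a, ∑ b, φ a b * ((∑ k, |x a k - x b k| ^ q) / D a b) := by
      rw [Finset.sum_comm]
      refine Finset.sum_congr rfl (fun a _ => ?_)
      rw [Finset.sum_comm]
      refine Finset.sum_congr rfl (fun b _ => ?_)
      rw [← Finset.mul_sum, Finset.sum_div]
    rw [hswap]
    have hle : ∑ a, ∑ b, φ a b * ((∑ k, |x a k - x b k| ^ q) / D a b) ≤ ∑ a, ∑ b, φ a b := by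
      refine Finset.sum_le_sum (fun a _ => Finset.sum_le_sum (fun b _ => ?_))
      rw [← hD]
      exact mul_le_of_le_one_right (hφ0 a b) (div_self_le_one _)
    calc (76 : ℝ) ^ q * ∑ a, ∑ b, φ a b * ((∑ k, |x a k - x b k| ^ q) / D a b)
        ≤ (76 : ℝ) ^ q * ∑ a, ∑ b, φ a b := mul_le_mul_of_nonneg_left hle h76
      _ ≤ (76 : ℝ) ^ q * n := by
          refine mul_le_mul_of_nonneg_left ?_ h76
          simpa using hφsum

end Vale.Agent.Lib.P249.H75.KNN
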