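import Vale.Agent.Lib.P249.helper75.SensPath
import Vale.Agent.Lib.P249.helper75.Assemble2
import Vale.Agent.Lib.P249.helper52.Sampling

/-!
# P249: dimension `C n (log n)^p` for finite subsets of `ℓ_p`

Greedy hop graph + power-mean inequality along paths (total pair sensitivity
`O(n (log n)^(p-1))`) + coordinate sampling.
-/

namespace Vale.Agent.Lib.P249.H75

open Finset

/-- The sampling lemma in the shape consumed by the assembly. -/
theorem sampling_statement' : SamplingStatement := by
  intro K F _ _ w s v S hw hv hs0 hs hS hSpos ε hε hε1 d hd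
  exact Vale.Agent.Lib.P249.sampling w s v S hw hv hs0 hs hS hSpos ε hε hε1 d hd

/-- The pair-sensitivity bound of the greedy hop graph in the shape consumed by the
assembly. -/
theorem sens_statement_pow (q : ℝ) (hq : 1 ≤ q) :
    SensStatementPow q (4 * (6 : ℝ) ^ (q - 1)) (q - 1) :=
  Girth.sens_greedy q hq

/-- Dimension reduction for finite subsets of `ℓ_p`, all `1 ≤ p < ∞`: `n ≥ 2` points embed
with distortion at most `D` into `ℓ_p^d` with `d ≤ C n (log n)^p`. -/
theorem near_linear_logp (p : ENNReal) [Fact (1 ≤ p)] (hp : p ≠ ⊤) (D : ℝ) (hD : 1 < D) :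
    ∃ C : ℝ, ∀ (n m : ℕ), 2 ≤ n → ∀ x : Fin n → PiLp p (fun _ : Fin m => ℝ),
      ∃ (d : ℕ) (y : Fin n → PiLp p (fun _ : Fin d => ℝ)),
        (d : ℝ) ≤ C * n * Real.log n ^ p.toReal ∧
        ∀ i j, dist (x i) (x j) ≤ dist (y i) (y j) ∧
          dist (y i) (y j) ≤ D * dist (x i) (x j) := by
  have hp1 : (1 : ENNReal) ≤ p := Fact.out
  have hq1 : 1 ≤ p.toReal := by
    have := ENNReal.toReal_mono hp hp1
    simpa using this
  have h := assemble_pow p hp D hD (4 * (6 : ℝ) ^ (p.toReal - 1)) (p.toReal - 1)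
    (by linarith) (sens_statement_pow p.toReal hq1) sampling_statement'
  simpa only [sub_add_cancel] using h

end Vale.Agent.Lib.P249.H75
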