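import Vale.Agent.Lib.P249.helper75.Greedy

/-!
# P249: pair sensitivities from the greedy hop graph

For `n ≥ 2` points `x : Fin n → Fin m → ℝ` and `q ≥ 1` there are coordinate weights
`s k ≥ 0` with `|x a k - x b k|^q ≤ s k * ∑ k', |x a k' - x b k'|^q` for all pairs and
`∑ k, s k ≤ 4 * 6^(q-1) * n * (log n)^(q-1)`.
-/

namespace Vale.Agent.Lib.P249.H75.Girth

open Classical

variable {V : Type*}

/-- the hops of a walk -/
def pairsL : V → List V → List (V × V)
  | _, [] => []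
  | a, c :: l => (a, c) :: pairsL c l

theorem pairsL_length : ∀ (a : V) (l : List V), (pairsL a l).length = l.length
  | _, [] => rfl
  | a, c :: l => by simp [pairsL, pairsL_length c l]

theorem mem_pairsL_fst : ∀ {a : V} {l : List V} {e : V × V}, e ∈ pairsL a l → e.1 ∈ a :: l
  | _, [], e, h => by simp [pairsL] at h
  | a, c :: l, e, h => by
    simp only [pairsL, List.mem_cons] at h
    rcases h with rfl | h
    · exact List.mem_cons_self ..
    · exact List.mem_cons_of_mem _ (mem_pairsL_fst h)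

theorem pairsL_nodup : ∀ {a : V} {l : List V}, (a :: l).Nodup → (pairsL a l).Nodup
  | _, [], _ => by simp [pairsL]
  | a, c :: l, h => by
    simp only [pairsL]
    rw [List.nodup_cons] at h ⊢
    refine ⟨?_, pairsL_nodup h.2⟩
    intro hmem
    exact h.1 (mem_pairsL_fst hmem)

theorem pairsL_rel {R : V → V → Prop} :
    ∀ {a b : V} {l : List V}, WalkL R a l b → ∀ e ∈ pairsL a l, R e.1 e.2
  | _, _, [], _, e, h => by simp [pairsL] at h
  | a, b, c :: l, hw, e, h => by
    simp only [pairsL, List.mem_cons] at h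
    rcases h with rfl | h
    · exact hw.1
    · exact pairsL_rel hw.2 e h

theorem abs_sub_le_sum {R : V → V → Prop} (g : V → ℝ) :
    ∀ {a b : V} {l : List V}, WalkL R a l b →
      |g a - g b| ≤ ((pairsL a l).map (fun e => |g e.1 - g e.2|)).sum
  | a, b, [], hw => by
    have : a = b := hw
    simp [pairsL, this]
  | a, b, c :: l, hw => by
    have ih := abs_sub_le_sum g hw.2
    have h1 := abs_sub_le (g a) (g c) (g b)
    simp only [pairsL, List.map_cons, List.sum_cons]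
    linarith

/-- the power-mean inequality along a simple path -/
theorem path_power_bound [DecidableEq V] (g : V → ℝ) (q : ℝ) (hq : 1 ≤ q)
    {R : V → V → Prop} {a b : V}
    {l : List V} (hw : WalkL R a l b) (hnd : (a :: l).Nodup) :
    |g a - g b| ^ q ≤
      (l.length : ℝ) ^ (q - 1) * ∑ e ∈ (pairsL a l).toFinset, |g e.1 - g e.2| ^ q := by
  have h1 := abs_sub_le_sum g hw
  have hnd' := pairsL_nodup hnd
  rw [← List.sum_toFinset (fun e : V × V => |g e.1 - g e.2|) hnd'] at h1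
  have h2 : |g a - g b| ^ q ≤ (∑ e ∈ (pairsL a l).toFinset, |g e.1 - g e.2|) ^ q :=
    Real.rpow_le_rpow (abs_nonneg _) h1 (by linarith)
  have h3 := Real.rpow_sum_le_const_mul_sum_rpow (pairsL a l).toFinset
    (fun e : V × V => g e.1 - g e.2) hq
  have h4 : ((pairsL a l).toFinset.card : ℝ) = (l.length : ℝ) := by
    rw [List.toFinset_card_of_nodup hnd', pairsL_length]
  rw [h4] at h3
  exact h2.trans h3

theorem clog_bound (n : ℕ) (hn : 2 ≤ n) :
    (1 : ℝ) ≤ 2 * (Nat.clog 2 n : ℝ) - 1 ∧ 2 * (Nat.clog 2 n : ℝ) - 1 ≤ 6 * Real.log n := by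
  have hpos : 0 < Nat.clog 2 n := Nat.clog_pos (by norm_num) (by omega)
  have h1 : (1 : ℝ) ≤ (Nat.clog 2 n : ℝ) := by exact_mod_cast hpos
  have h2 : 2 ^ (Nat.clog 2 n).pred < n := Nat.pow_pred_clog_lt_self (by norm_num) (by omega)
  have h3 : ((2 : ℝ)) ^ (Nat.clog 2 n).pred ≤ n := by exact_mod_cast h2.le
  have h4 : Real.log ((2 : ℝ) ^ (Nat.clog 2 n).pred) ≤ Real.log n :=
    Real.log_le_log (by positivity) h3
  rw [Real.log_pow] at h4
  have h5 : (((Nat.clog 2 n).pred : ℕ) : ℝ) = (Nat.clog 2 n : ℝ) - 1 := by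
    rw [Nat.pred_eq_sub_one, Nat.cast_sub hpos]
    simp
  rw [h5] at h4
  have h6 := Real.log_two_gt_d9
  have hn' : (2 : ℝ) ≤ n := by exact_mod_cast hn
  have h7 : Real.log 2 ≤ Real.log n := Real.log_le_log (by norm_num) hn'
  have h8 : ((Nat.clog 2 n : ℝ) - 1) * (1 / 2) ≤ ((Nat.clog 2 n : ℝ) - 1) * Real.log 2 :=
    mul_le_mul_of_nonneg_left (by linarith) (by linarith)
  constructor
  · linarith
  · linarith

/-- **Pair-sensitivity bound via the greedy hop graph.** -/
theorem sens_greedy (q : ℝ) (hq : 1 ≤ q) :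
    ∀ (n m : ℕ), 2 ≤ n → ∀ x : Fin n → Fin m → ℝ,
      ∃ s : Fin m → ℝ, (∀ k, 0 ≤ s k) ∧
        (∀ k a b, |x a k - x b k| ^ q ≤ s k * ∑ k', |x a k' - x b k'| ^ q) ∧
        ∑ k, s k ≤ (4 * (6 : ℝ) ^ (q - 1)) * n * Real.log n ^ (q - 1) := by
  intro n m hn x
  have hq0 : 0 < q := by linarith
  -- the key: q-th power distances
  set key : Fin n → Fin n → ℝ := fun a b => ∑ k', |x a k' - x b k'| ^ q with hkey
  have hkey0 : ∀ a b, 0 ≤ key a b := fun a b =>
    Finset.sum_nonneg (fun k _ => Real.rpow_nonneg (abs_nonneg _) _)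
  have hsymm : ∀ a b, key a b = key b a := by
    intro a b
    simp only [hkey]
    refine Finset.sum_congr rfl (fun k _ => ?_)
    rw [abs_sub_comm]
  have hκ : 1 ≤ Nat.clog 2 n := Nat.clog_pos (by norm_num) (by omega)
  have hV : Fintype.card (Fin n) ≤ 2 ^ Nat.clog 2 n := by
    rw [Fintype.card_fin]
    exact Nat.le_pow_clog (by norm_num) n
  obtain ⟨L, hL1, hL2⟩ := exists_hop_graph key hsymm (Nat.clog 2 n) hκ hV
  -- the ordered adjacent pairs
  set E2 : Finset (Fin n × Fin n) := Finset.univ.filter (fun e => Adj L e.1 e.2) with hE2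
  have hE2card : (E2.card : ℝ) ≤ 4 * n := by
    have h := hL1 E2 (fun e he => (Finset.mem_filter.1 he).2)
    rw [Fintype.card_fin] at h
    exact_mod_cast h
  set τ : ℝ := 2 * (Nat.clog 2 n : ℝ) - 1 with hτ
  obtain ⟨hτ1, hτ6⟩ := clog_bound n hn
  have hτ0 : 0 ≤ τ := by linarith
  have hτq : 0 ≤ τ ^ (q - 1) := Real.rpow_nonneg hτ0 _
  -- relative contributions
  set ρ : Fin m → Fin n × Fin n → ℝ :=
    fun k e => |x e.1 k - x e.2 k| ^ q / key e.1 e.2 with hρ
  have hρ0 : ∀ k e, 0 ≤ ρ k e := fun k e =>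
    div_nonneg (Real.rpow_nonneg (abs_nonneg _) _) (hkey0 _ _)
  refine ⟨fun k => τ ^ (q - 1) * ∑ e ∈ E2, ρ k e,
    fun k => mul_nonneg hτq (Finset.sum_nonneg (fun e _ => hρ0 k e)), ?_, ?_⟩
  · intro k a b
    obtain ⟨l, hw, hnd, hlen⟩ := hL2 a b
    have h1 := path_power_bound (fun c => x c k) q hq hw hnd
    have hlen' : (l.length : ℝ) ≤ τ := by
      have h : (l.length : ℝ) ≤ ((2 * Nat.clog 2 n - 1 : ℕ) : ℝ) := by exact_mod_cast hlen
      rw [Nat.cast_sub (by omega)] at h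
      push_cast at h
      exact h
    have h2 : (l.length : ℝ) ^ (q - 1) ≤ τ ^ (q - 1) :=
      Real.rpow_le_rpow (Nat.cast_nonneg _) hlen' (by linarith)
    -- each hop
    have h3 : ∀ e ∈ (pairsL a l).toFinset,
        |x e.1 k - x e.2 k| ^ q ≤ key a b * ρ k e := by
      intro e he
      have hR := pairsL_rel hw e (List.mem_toFinset.1 he)
      have hle : key e.1 e.2 ≤ key a b := hR.2
      have hwle : |x e.1 k - x e.2 k| ^ q ≤ key e.1 e.2 :=
        Finset.single_le_sum (f := fun k' => |x e.1 k' - x e.2 k'| ^ q)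
          (fun k' _ => Real.rpow_nonneg (abs_nonneg _) _) (Finset.mem_univ k)
      rcases (hkey0 e.1 e.2).eq_or_lt with h0 | h0
      · have hz : |x e.1 k - x e.2 k| ^ q ≤ 0 := by rw [h0]; exact hwle
        exact hz.trans (mul_nonneg (hkey0 a b) (hρ0 k e))
      · have : |x e.1 k - x e.2 k| ^ q = key e.1 e.2 * ρ k e := by
          simp only [hρ]
          field_simp
        rw [this]
        exact mul_le_mul_of_nonneg_right hle (hρ0 k e)
    have hsub : (pairsL a l).toFinset ⊆ E2 := by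
      intro e he
      have hR := pairsL_rel hw e (List.mem_toFinset.1 he)
      exact Finset.mem_filter.2 ⟨Finset.mem_univ _, hR.1⟩
    have h4 : ∑ e ∈ (pairsL a l).toFinset, |x e.1 k - x e.2 k| ^ q ≤
        key a b * ∑ e ∈ E2, ρ k e := by
      calc ∑ e ∈ (pairsL a l).toFinset, |x e.1 k - x e.2 k| ^ q
          ≤ ∑ e ∈ (pairsL a l).toFinset, key a b * ρ k e := Finset.sum_le_sum h3
        _ = key a b * ∑ e ∈ (pairsL a l).toFinset, ρ k e := by rw [Finset.mul_sum]
        _ ≤ key a b * ∑ e ∈ E2, ρ k e :=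
            mul_le_mul_of_nonneg_left
              (Finset.sum_le_sum_of_subset_of_nonneg hsub (fun e _ _ => hρ0 k e)) (hkey0 a b)
    have h5 : 0 ≤ ∑ e ∈ (pairsL a l).toFinset, |x e.1 k - x e.2 k| ^ q :=
      Finset.sum_nonneg (fun e _ => Real.rpow_nonneg (abs_nonneg _) _)
    calc |x a k - x b k| ^ q
        ≤ (l.length : ℝ) ^ (q - 1) * ∑ e ∈ (pairsL a l).toFinset, |x e.1 k - x e.2 k| ^ q := h1
      _ ≤ τ ^ (q - 1) * ∑ e ∈ (pairsL a l).toFinset, |x e.1 k - x e.2 k| ^ q :=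
          mul_le_mul_of_nonneg_right h2 h5
      _ ≤ τ ^ (q - 1) * (key a b * ∑ e ∈ E2, ρ k e) := mul_le_mul_of_nonneg_left h4 hτq
      _ = τ ^ (q - 1) * (∑ e ∈ E2, ρ k e) * ∑ k', |x a k' - x b k'| ^ q := by
          simp only [hkey]
          ring
  · rw [← Finset.mul_sum, Finset.sum_comm]
    have h1 : ∀ e ∈ E2, ∑ k, ρ k e ≤ 1 := by
      intro e _
      simp only [hρ]
      rw [← Finset.sum_div]
      exact div_self_le_one _
    have h2 : ∑ e ∈ E2, ∑ k, ρ k e ≤ (E2.card : ℝ) := by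
      have := Finset.sum_le_card_nsmul E2 (fun e => ∑ k, ρ k e) 1 h1
      simpa using this
    have hlog : 0 < Real.log n := by
      have hn' : (2 : ℝ) ≤ n := by exact_mod_cast hn
      have := Real.log_le_log (by norm_num : (0 : ℝ) < 2) hn'
      have := Real.log_two_gt_d9
      linarith
    have h3 : τ ^ (q - 1) ≤ (6 : ℝ) ^ (q - 1) * Real.log n ^ (q - 1) := by
      rw [← Real.mul_rpow (by norm_num) hlog.le]
      exact Real.rpow_le_rpow hτ0 hτ6 (by linarith)
    have h6 : 0 ≤ (6 : ℝ) ^ (q - 1) := Real.rpow_nonneg (by norm_num) _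
    have hl : 0 ≤ Real.log n ^ (q - 1) := Real.rpow_nonneg hlog.le _
    have hn0 : (0 : ℝ) ≤ n := Nat.cast_nonneg n
    calc τ ^ (q - 1) * ∑ e ∈ E2, ∑ k, ρ k e
        ≤ ((6 : ℝ) ^ (q - 1) * Real.log n ^ (q - 1)) * (4 * n) :=
          mul_le_mul h3 (h2.trans hE2card)
            (Finset.sum_nonneg (fun e _ => Finset.sum_nonneg (fun k _ => hρ0 k e)))
            (mul_nonneg h6 hl)
      _ = (4 * (6 : ℝ) ^ (q - 1)) * n * Real.log n ^ (q - 1) := by ring

end Vale.Agent.Lib.P249.H75.Girth
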