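import Mathlib

/-!
# P249: the pair-sensitivity bound

For points `x : Fin n → Fin m → ℝ` and an exponent `q ≥ 1` there are coordinate
weights `s k ≥ 0` with `|x a k - x b k|^q ≤ s k * ∑ k', |x a k' - x b k'|^q` for all
pairs and `∑ k, s k ≤ 6 * 2^q * 8^q * n * (log n)^(q+1)`.

Proof (potential argument of helper21): `φ(a,b) = 1 / #{y : d(a,y) ≤ d(a,b)}` on ordered
pairs, `T k = ∑_{(a,b)} φ(a,b) * w_k(a,b) / v(a,b)`; `∑_k T k ≤ n H_n`, and every pair
satisfies `w_k(i,j) / v(i,j) ≤ 2 * 2^q * (2 log₂ n + 2)^q * T k` by a ball-doubling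
argument around `i`.
-/

namespace Vale.Agent.Lib.P249.H75.Sens

open Finset

/-! ### A rank lemma: `∑_b 1 / #{y : f y ≤ f b} ≤ H_N` -/

theorem sum_inv_rank_le {α : Type*} [DecidableEq α] (f : α → ℝ) :
    ∀ (N : ℕ) (U : Finset α), U.card = N →
      ∑ b ∈ U, (1 : ℝ) / ((U.filter (fun y => f y ≤ f b)).card : ℝ) ≤ (harmonic N : ℝ) := by
  intro N
  induction N with
  | zero =>
    intro U hU
    rw [Finset.card_eq_zero] at hU
    subst hU
    simp
  | succ N ih =>
    intro U hU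
    have hne : U.Nonempty := by
      rw [← Finset.card_pos]; omega
    obtain ⟨b₀, hb₀, hmax⟩ := Finset.exists_max_image U f hne
    have hUe : (U.erase b₀).card = N := by
      rw [Finset.card_erase_of_mem hb₀]; omega
    have ih' := ih (U.erase b₀) hUe
    rw [← Finset.add_sum_erase U _ hb₀]
    have h1 : (U.filter (fun y => f y ≤ f b₀)) = U := Finset.filter_true_of_mem hmax
    rw [h1, hU, harmonic_succ]
    push_cast
    have h2 : ∑ b ∈ U.erase b₀, (1 : ℝ) / ((U.filter (fun y => f y ≤ f b)).card : ℝ) ≤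
        ∑ b ∈ U.erase b₀, (1 : ℝ) / (((U.erase b₀).filter (fun y => f y ≤ f b)).card : ℝ) := by
      apply Finset.sum_le_sum
      intro b hb
      have hsub : (U.erase b₀).filter (fun y => f y ≤ f b) ⊆ U.filter (fun y => f y ≤ f b) :=
        Finset.filter_subset_filter _ (Finset.erase_subset _ _)
      have hpos : 0 < ((U.erase b₀).filter (fun y => f y ≤ f b)).card :=
        Finset.card_pos.2 ⟨b, Finset.mem_filter.2 ⟨hb, le_refl _⟩⟩
      apply one_div_le_one_div_of_le (by exact_mod_cast hpos)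
      exact_mod_cast Finset.card_le_card hsub
    have h3 : (1 : ℝ) / ((N : ℝ) + 1) = ((N : ℝ) + 1)⁻¹ := one_div _
    linarith

/-! ### A doubling scale exists among the first `log₂ n + 1` scales -/

theorem exists_doubling (n : ℕ) (g : ℕ → ℕ) (h0 : 1 ≤ g 0) (hn : ∀ μ, g μ ≤ n) :
    ∃ μ, μ ≤ Nat.log 2 n ∧ g (μ + 1) ≤ 2 * g μ := by
  by_contra hcon
  push Not at hcon
  have key : ∀ μ, μ ≤ Nat.log 2 n + 1 → 2 ^ μ ≤ g μ := by
    intro μ
    induction μ with
    | zero => intro _; simpa using h0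
    | succ μ ih =>
      intro hμ
      have h1 := ih (by omega)
      have h2 := hcon μ (by omega)
      rw [pow_succ]; omega
  have h1 := key (Nat.log 2 n + 1) le_rfl
  have h2 := Nat.lt_pow_succ_log_self (by norm_num : 1 < 2) n
  have h3 := hn (Nat.log 2 n + 1)
  simp only [Nat.succ_eq_add_one] at h2
  omega

/-! ### Convexity on the line -/

theorem conv_ineq (q : ℝ) (hq : 1 ≤ q) (a b c : ℝ) :
    |a - b| ^ q ≤ (2 : ℝ) ^ q / 2 * (|a - c| ^ q + |b - c| ^ q) := by
  have h1 : |a - b| ≤ |a - c| + |b - c| := by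
    have := abs_sub_le a c b
    rw [abs_sub_comm c b] at this
    exact this
  have h2 : |a - b| ^ q ≤ (|a - c| + |b - c|) ^ q :=
    Real.rpow_le_rpow (abs_nonneg _) h1 (by linarith)
  have h3 := NNReal.rpow_add_le_mul_rpow_add_rpow ⟨|a - c|, abs_nonneg _⟩
    ⟨|b - c|, abs_nonneg _⟩ hq
  have h4 : (|a - c| + |b - c|) ^ q ≤ (2 : ℝ) ^ (q - 1) * (|a - c| ^ q + |b - c| ^ q) := by
    exact_mod_cast h3
  have h5 : (2 : ℝ) ^ (q - 1) = (2 : ℝ) ^ q / 2 := by
    rw [Real.rpow_sub_one (by norm_num)]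
  rw [h5] at h4
  exact h2.trans h4

/-! ### The configuration: coordinate costs, `q`-th power distances, the metric -/

variable {n m : ℕ}

/-- `|x_a(k) - x_b(k)|^q` -/
noncomputable def w (x : Fin n → Fin m → ℝ) (q : ℝ) (k : Fin m) (a b : Fin n) : ℝ :=
  |x a k - x b k| ^ q

/-- `‖x_a - x_b‖_q^q` -/
noncomputable def v (x : Fin n → Fin m → ℝ) (q : ℝ) (a b : Fin n) : ℝ := ∑ k, w x q k a b

/-- `‖x_a - x_b‖_q` -/
noncomputable def dd (x : Fin n → Fin m → ℝ) (q : ℝ) (a b : Fin n) : ℝ := (v x q a b) ^ (1 / q)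

theorem w_nonneg (x : Fin n → Fin m → ℝ) (q : ℝ) (k : Fin m) (a b : Fin n) :
    0 ≤ w x q k a b := Real.rpow_nonneg (abs_nonneg _) _

theorem v_nonneg (x : Fin n → Fin m → ℝ) (q : ℝ) (a b : Fin n) : 0 ≤ v x q a b :=
  Finset.sum_nonneg (fun k _ => w_nonneg x q k a b)

theorem w_le_v (x : Fin n → Fin m → ℝ) (q : ℝ) (k : Fin m) (a b : Fin n) :
    w x q k a b ≤ v x q a b :=
  Finset.single_le_sum (f := fun k => w x q k a b) (fun k _ => w_nonneg x q k a b)
    (Finset.mem_univ k)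

theorem dd_nonneg (x : Fin n → Fin m → ℝ) (q : ℝ) (a b : Fin n) : 0 ≤ dd x q a b :=
  Real.rpow_nonneg (v_nonneg x q a b) _

theorem dd_pow (x : Fin n → Fin m → ℝ) (q : ℝ) (hq : 0 < q) (a b : Fin n) :
    dd x q a b ^ q = v x q a b := by
  unfold dd
  rw [← Real.rpow_mul (v_nonneg x q a b), one_div, inv_mul_cancel₀ hq.ne', Real.rpow_one]

theorem dd_self (x : Fin n → Fin m → ℝ) (q : ℝ) (hq : 0 < q) (a : Fin n) :
    dd x q a a = 0 := by
  have h : v x q a a = 0 := by
    unfold v w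
    simp [Real.zero_rpow hq.ne']
  unfold dd
  rw [h, Real.zero_rpow (one_div_pos.2 hq).ne']

theorem dd_comm (x : Fin n → Fin m → ℝ) (q : ℝ) (a b : Fin n) :
    dd x q a b = dd x q b a := by
  unfold dd v w
  simp only [abs_sub_comm]

theorem dd_triangle (x : Fin n → Fin m → ℝ) (q : ℝ) (hq : 1 ≤ q) (a b c : Fin n) :
    dd x q a c ≤ dd x q a b + dd x q b c := by
  have h := Real.Lp_add_le Finset.univ (fun k => x a k - x b k) (fun k => x b k - x c k) hq
  simp only [sub_add_sub_cancel] at h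
  exact h

/-- closed ball of the finite metric space -/
noncomputable def ball (x : Fin n → Fin m → ℝ) (q : ℝ) (a : Fin n) (ρ : ℝ) : Finset (Fin n) :=
  Finset.univ.filter (fun y => dd x q a y ≤ ρ)

theorem mem_ball (x : Fin n → Fin m → ℝ) (q : ℝ) (a y : Fin n) (ρ : ℝ) :
    y ∈ ball x q a ρ ↔ dd x q a y ≤ ρ := by
  simp [ball]

/-- the pair potential `1 / #B(a, d(a,b))` -/
noncomputable def φ (x : Fin n → Fin m → ℝ) (q : ℝ) (a b : Fin n) : ℝ :=
  1 / ((ball x q a (dd x q a b)).card : ℝ)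

/-- the weighted relative contribution of coordinate `k` to the pair `(a,b)` -/
noncomputable def F (x : Fin n → Fin m → ℝ) (q : ℝ) (k : Fin m) (a b : Fin n) : ℝ :=
  φ x q a b * (w x q k a b / v x q a b)

/-- the sensitivity proxy of coordinate `k` -/
noncomputable def T (x : Fin n → Fin m → ℝ) (q : ℝ) (k : Fin m) : ℝ :=
  ∑ a, ∑ b, F x q k a b

theorem φ_nonneg (x : Fin n → Fin m → ℝ) (q : ℝ) (a b : Fin n) : 0 ≤ φ x q a b := by
  unfold φ; positivity

theorem F_nonneg (x : Fin n → Fin m → ℝ) (q : ℝ) (k : Fin m) (a b : Fin n) :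
    0 ≤ F x q k a b :=
  mul_nonneg (φ_nonneg x q a b) (div_nonneg (w_nonneg x q k a b) (v_nonneg x q a b))

theorem T_nonneg (x : Fin n → Fin m → ℝ) (q : ℝ) (k : Fin m) : 0 ≤ T x q k :=
  Finset.sum_nonneg (fun a _ => Finset.sum_nonneg (fun b _ => F_nonneg x q k a b))

theorem φ_ge (x : Fin n → Fin m → ℝ) (q : ℝ) (hq : 0 < q) (a b : Fin n)
    (B : Finset (Fin n)) (hsub : ball x q a (dd x q a b) ⊆ B) :
    1 / (B.card : ℝ) ≤ φ x q a b := by
  unfold φ
  have hpos : 0 < (ball x q a (dd x q a b)).card :=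
    Finset.card_pos.2 ⟨a, (mem_ball x q a a _).2 (by rw [dd_self x q hq]; exact dd_nonneg x q a b)⟩
  apply one_div_le_one_div_of_le (by exact_mod_cast hpos)
  exact_mod_cast Finset.card_le_card hsub

theorem div_mono_aux (a u V : ℝ) (ha : 0 ≤ a) (hau : a ≤ u) (huV : u ≤ V) :
    a / V ≤ a / u := by
  rcases (ha.trans hau).eq_or_lt with hu | hu
  · have ha0 : a = 0 := le_antisymm (hu ▸ hau) ha
    rw [ha0]; simp
  · exact div_le_div_of_nonneg_left ha hu huV

/-! ### (A2): the total mass of the proxies -/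

theorem sum_T_le (x : Fin n → Fin m → ℝ) (q : ℝ) :
    ∑ k, T x q k ≤ n * (1 + Real.log n) := by
  unfold T
  have h1 : ∑ k, ∑ a, ∑ b, F x q k a b = ∑ a, ∑ b, ∑ k, F x q k a b := by
    rw [Finset.sum_comm]
    refine Finset.sum_congr rfl (fun a _ => ?_)
    rw [Finset.sum_comm]
  rw [h1]
  have h2 : ∀ a b, ∑ k, F x q k a b ≤ φ x q a b := by
    intro a b
    unfold F
    rw [← Finset.mul_sum, ← Finset.sum_div]
    have h : (∑ k, w x q k a b) / v x q a b ≤ 1 := by
      show v x q a b / v x q a b ≤ 1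
      exact div_self_le_one _
    calc φ x q a b * ((∑ k, w x q k a b) / v x q a b) ≤ φ x q a b * 1 :=
          mul_le_mul_of_nonneg_left h (φ_nonneg x q a b)
      _ = φ x q a b := mul_one _
  have h3 : ∀ a, ∑ b, φ x q a b ≤ 1 + Real.log n := by
    intro a
    have h := sum_inv_rank_le (fun y => dd x q a y) n (Finset.univ : Finset (Fin n)) (by simp)
    exact h.trans (harmonic_le_one_add_log n)
  calc ∑ a, ∑ b, ∑ k, F x q k a b ≤ ∑ a, ∑ b, φ x q a b :=
        Finset.sum_le_sum (fun a _ => Finset.sum_le_sum (fun b _ => h2 a b))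
    _ ≤ ∑ _a : Fin n, (1 + Real.log n) := Finset.sum_le_sum (fun a _ => h3 a)
    _ = n * (1 + Real.log n) := by simp; ring

/-! ### (A1): every pair is dominated by the proxy -/

/-- the final arithmetic of (A1) -/
theorem arith_final (R P E b1 b3 Tk : ℝ) (hR0 : 0 ≤ R) (hP2 : 2 ≤ P) (hE1 : 1 ≤ E)
    (hb1 : 2 ≤ b1) (hb3' : 0 < b3) (hb3 : b3 ≤ 2 * b1)
    (hTlow : R / b1 + (b1 - 2) * (1 / b3 * (2 / (P * E) * R)) ≤ Tk) :
    R ≤ 2 * P * E * Tk := by
  have hP0 : 0 < P := by linarith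
  have hE0 : 0 < E := by linarith
  have hb1' : 0 < b1 := by linarith
  have hPE : 0 < P * E := mul_pos hP0 hE0
  have hPE2 : 2 ≤ P * E := by
    calc (2 : ℝ) = 2 * 1 := by norm_num
      _ ≤ P * E := mul_le_mul hP2 hE1 (by norm_num) hP0.le
  have e1 : 2 * P * E * (R / b1 + (b1 - 2) * (1 / b3 * (2 / (P * E) * R))) =
      R * (2 * P * E / b1 + 4 * (b1 - 2) / b3) := by
    field_simp
    ring
  have e2 : (1 : ℝ) ≤ 2 * P * E / b1 + 4 * (b1 - 2) / b3 := by
    have h1 : 4 * (b1 - 2) / (2 * b1) ≤ 4 * (b1 - 2) / b3 :=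
      div_le_div_of_nonneg_left (by linarith) hb3' hb3
    have h2 : 2 * P * E / b1 + 4 * (b1 - 2) / (2 * b1) =
        (2 * (P * E) + 2 * b1 - 4) / b1 := by
      field_simp
      ring
    have h3 : (1 : ℝ) ≤ (2 * (P * E) + 2 * b1 - 4) / b1 := by
      rw [le_div_iff₀ hb1']
      linarith
    linarith
  calc R = R * 1 := (mul_one R).symm
    _ ≤ R * (2 * P * E / b1 + 4 * (b1 - 2) / b3) := mul_le_mul_of_nonneg_left e2 hR0
    _ = 2 * P * E * (R / b1 + (b1 - 2) * (1 / b3 * (2 / (P * E) * R))) := e1.symm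
    _ ≤ 2 * P * E * Tk := mul_le_mul_of_nonneg_left hTlow (by positivity)

/-- lower bound of `T` by the terms attached to two rows -/
theorem T_lower (x : Fin n → Fin m → ℝ) (q : ℝ) (k : Fin m) (i j : Fin n) (hij : i ≠ j)
    (B' : Finset (Fin n)) (hjB' : j ∉ B') :
    F x q k i j + ∑ l ∈ B', (F x q k i l + F x q k j l) ≤ T x q k := by
  have hG : ∀ a, 0 ≤ ∑ b, F x q k a b :=
    fun a => Finset.sum_nonneg (fun b _ => F_nonneg x q k a b)
  have h1 : (∑ b, F x q k i b) + (∑ b, F x q k j b) ≤ T x q k := by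
    have h := Finset.sum_le_sum_of_subset_of_nonneg
      (Finset.subset_univ ({i, j} : Finset (Fin n))) (f := fun a => ∑ b, F x q k a b)
      (fun a _ _ => hG a)
    rwa [Finset.sum_pair hij] at h
  have h2 : F x q k i j + ∑ l ∈ B', F x q k i l ≤ ∑ b, F x q k i b := by
    have h := Finset.sum_le_sum_of_subset_of_nonneg
      (Finset.subset_univ (insert j B')) (f := fun b => F x q k i b)
      (fun b _ _ => F_nonneg x q k i b)
    rwa [Finset.sum_insert hjB'] at h
  have h3 : ∑ l ∈ B', F x q k j l ≤ ∑ b, F x q k j b :=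
    Finset.sum_le_sum_of_subset_of_nonneg (Finset.subset_univ B')
      (fun b _ _ => F_nonneg x q k j b)
  rw [Finset.sum_add_distrib]
  linarith

/-- the contribution of a third point `l` of the ball -/
theorem term_bound (x : Fin n → Fin m → ℝ) (q : ℝ) (hq : 1 ≤ q) (k : Fin m) (i j l : Fin n)
    (C : ℝ) (hC1 : 1 ≤ C) (hvpos : 0 < v x q i j)
    (hdil : dd x q i l ≤ C * dd x q i j) :
    1 / ((ball x q i ((C + 2) * dd x q i j)).card : ℝ) *
        (2 / ((2 : ℝ) ^ q * (C + 1) ^ q) * (w x q k i j / v x q i j)) ≤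
      F x q k i l + F x q k j l := by
  have hq0 : 0 < q := by linarith
  have hρpos : 0 < dd x q i j := Real.rpow_pos_of_pos hvpos _
  have hρq : dd x q i j ^ q = v x q i j := dd_pow x q hq0 i j
  have hP2 : 2 ≤ (2 : ℝ) ^ q := by
    calc (2 : ℝ) = 2 ^ (1 : ℝ) := (Real.rpow_one 2).symm
      _ ≤ 2 ^ q := Real.rpow_le_rpow_of_exponent_le (by norm_num) hq
  have hE1 : 1 ≤ (C + 1) ^ q := Real.one_le_rpow (by linarith) (by linarith)
  have hP0 : 0 < (2 : ℝ) ^ q := by linarith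
  have hE0 : 0 < (C + 1) ^ q := by linarith
  have hdjl : dd x q j l ≤ (C + 1) * dd x q i j := by
    have h := dd_triangle x q hq j i l
    rw [dd_comm x q j i] at h
    linarith
  have hV : 0 < (C + 1) ^ q * v x q i j := mul_pos hE0 hvpos
  have hEv : (C + 1) ^ q * v x q i j = ((C + 1) * dd x q i j) ^ q := by
    rw [Real.mul_rpow (by linarith) hρpos.le, hρq]
  have hvil : v x q i l ≤ (C + 1) ^ q * v x q i j := by
    rw [hEv, ← dd_pow x q hq0 i l]
    exact Real.rpow_le_rpow (dd_nonneg x q i l) (by linarith) (by linarith)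
  have hvjl : v x q j l ≤ (C + 1) ^ q * v x q i j := by
    rw [hEv, ← dd_pow x q hq0 j l]
    exact Real.rpow_le_rpow (dd_nonneg x q j l) hdjl (by linarith)
  have hri : w x q k i l / ((C + 1) ^ q * v x q i j) ≤ w x q k i l / v x q i l :=
    div_mono_aux _ _ _ (w_nonneg x q k i l) (w_le_v x q k i l) hvil
  have hrj : w x q k j l / ((C + 1) ^ q * v x q i j) ≤ w x q k j l / v x q j l :=
    div_mono_aux _ _ _ (w_nonneg x q k j l) (w_le_v x q k j l) hvjl
  have hconv : w x q k i j ≤ (2 : ℝ) ^ q / 2 * (w x q k i l + w x q k j l) :=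
    conv_ineq q hq (x i k) (x j k) (x l k)
  have hφi : 1 / ((ball x q i ((C + 2) * dd x q i j)).card : ℝ) ≤ φ x q i l :=
    φ_ge x q hq0 i l _ (by
      intro y hy
      rw [mem_ball] at hy ⊢
      linarith)
  have hφj : 1 / ((ball x q i ((C + 2) * dd x q i j)).card : ℝ) ≤ φ x q j l :=
    φ_ge x q hq0 j l _ (by
      intro y hy
      rw [mem_ball] at hy ⊢
      have h := dd_triangle x q hq i j y
      linarith)
  have h3 : (0 : ℝ) ≤ 1 / ((ball x q i ((C + 2) * dd x q i j)).card : ℝ) := by positivity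
  have hkey : 2 / ((2 : ℝ) ^ q * (C + 1) ^ q) * (w x q k i j / v x q i j) ≤
      w x q k i l / ((C + 1) ^ q * v x q i j) + w x q k j l / ((C + 1) ^ q * v x q i j) := by
    rw [← add_div, div_mul_div_comm, div_le_div_iff₀ (mul_pos (mul_pos hP0 hE0) hvpos) hV]
    have h5 : 2 * w x q k i j ≤ (2 : ℝ) ^ q * (w x q k i l + w x q k j l) := by linarith
    have h6 : (2 * w x q k i j) * ((C + 1) ^ q * v x q i j) ≤
        ((2 : ℝ) ^ q * (w x q k i l + w x q k j l)) * ((C + 1) ^ q * v x q i j) :=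
      mul_le_mul_of_nonneg_right h5 hV.le
    calc 2 * w x q k i j * ((C + 1) ^ q * v x q i j) ≤
          ((2 : ℝ) ^ q * (w x q k i l + w x q k j l)) * ((C + 1) ^ q * v x q i j) := h6
      _ = (w x q k i l + w x q k j l) * ((2 : ℝ) ^ q * (C + 1) ^ q * v x q i j) := by ring
  calc 1 / ((ball x q i ((C + 2) * dd x q i j)).card : ℝ) *
        (2 / ((2 : ℝ) ^ q * (C + 1) ^ q) * (w x q k i j / v x q i j))
      ≤ 1 / ((ball x q i ((C + 2) * dd x q i j)).card : ℝ) *
          (w x q k i l / ((C + 1) ^ q * v x q i j) +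
            w x q k j l / ((C + 1) ^ q * v x q i j)) :=
        mul_le_mul_of_nonneg_left hkey h3
    _ = 1 / ((ball x q i ((C + 2) * dd x q i j)).card : ℝ) *
          (w x q k i l / ((C + 1) ^ q * v x q i j)) +
        1 / ((ball x q i ((C + 2) * dd x q i j)).card : ℝ) *
          (w x q k j l / ((C + 1) ^ q * v x q i j)) := by ring
    _ ≤ 1 / ((ball x q i ((C + 2) * dd x q i j)).card : ℝ) * (w x q k i l / v x q i l) +
        1 / ((ball x q i ((C + 2) * dd x q i j)).card : ℝ) * (w x q k j l / v x q j l) :=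
        add_le_add (mul_le_mul_of_nonneg_left hri h3) (mul_le_mul_of_nonneg_left hrj h3)
    _ ≤ φ x q i l * (w x q k i l / v x q i l) + φ x q j l * (w x q k j l / v x q j l) :=
        add_le_add
          (mul_le_mul_of_nonneg_right hφi
            (div_nonneg (w_nonneg x q k i l) (v_nonneg x q i l)))
          (mul_le_mul_of_nonneg_right hφj
            (div_nonneg (w_nonneg x q k j l) (v_nonneg x q j l)))

/-- (A1) at a fixed doubling scale `C` -/
theorem pair_bound_scale (x : Fin n → Fin m → ℝ) (q : ℝ) (hq : 1 ≤ q) (k : Fin m)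
    (i j : Fin n) (C : ℝ) (hC1 : 1 ≤ C) (hvpos : 0 < v x q i j)
    (hdbl : (ball x q i ((C + 2) * dd x q i j)).card ≤ 2 * (ball x q i (C * dd x q i j)).card) :
    w x q k i j / v x q i j ≤ 2 * (2 : ℝ) ^ q * (C + 1) ^ q * T x q k := by
  have hq0 : 0 < q := by linarith
  have hρpos : 0 < dd x q i j := Real.rpow_pos_of_pos hvpos _
  have hij : i ≠ j := by
    intro h
    rw [h, dd_self x q hq0] at hρpos
    exact lt_irrefl _ hρpos
  have hiB1 : i ∈ ball x q i (C * dd x q i j) := (mem_ball x q i i _).2 (by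
    rw [dd_self x q hq0]; positivity)
  have hjB1 : j ∈ ball x q i (C * dd x q i j) := (mem_ball x q i j _).2 (by nlinarith)
  have hiB3 : i ∈ ball x q i ((C + 2) * dd x q i j) := (mem_ball x q i i _).2 (by
    rw [dd_self x q hq0]; positivity)
  have hcard2 : 2 ≤ (ball x q i (C * dd x q i j)).card := by
    have hsub : ({i, j} : Finset (Fin n)) ⊆ ball x q i (C * dd x q i j) := by
      intro y hy
      simp only [Finset.mem_insert, Finset.mem_singleton] at hy
      rcases hy with rfl | rfl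
      · exact hiB1
      · exact hjB1
    have := Finset.card_le_card hsub
    rwa [Finset.card_pair hij] at this
  have hB'card : ((((ball x q i (C * dd x q i j)).erase i).erase j).card : ℝ) =
      ((ball x q i (C * dd x q i j)).card : ℝ) - 2 := by
    have h1 : j ∈ (ball x q i (C * dd x q i j)).erase i := Finset.mem_erase.2 ⟨hij.symm, hjB1⟩
    rw [Finset.card_erase_of_mem h1, Finset.card_erase_of_mem hiB1]
    obtain ⟨t, ht⟩ : ∃ t, (ball x q i (C * dd x q i j)).card = t + 2 :=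
      ⟨(ball x q i (C * dd x q i j)).card - 2, by omega⟩
    rw [ht]
    have : t + 2 - 1 - 1 = t := by omega
    rw [this]
    push_cast; ring
  have hT1 := T_lower x q k i j hij (((ball x q i (C * dd x q i j)).erase i).erase j)
    (Finset.notMem_erase j _)
  have hR0 : 0 ≤ w x q k i j / v x q i j := div_nonneg (w_nonneg x q k i j) hvpos.le
  have hP2 : 2 ≤ (2 : ℝ) ^ q := by
    calc (2 : ℝ) = 2 ^ (1 : ℝ) := (Real.rpow_one 2).symm
      _ ≤ 2 ^ q := Real.rpow_le_rpow_of_exponent_le (by norm_num) hq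
  have hE1 : 1 ≤ (C + 1) ^ q := Real.one_le_rpow (by linarith) (by linarith)
  have hb1pos : 0 < (ball x q i (C * dd x q i j)).card := Finset.card_pos.2 ⟨i, hiB1⟩
  have hb3pos : 0 < (ball x q i ((C + 2) * dd x q i j)).card := Finset.card_pos.2 ⟨i, hiB3⟩
  have hFij : w x q k i j / v x q i j / ((ball x q i (C * dd x q i j)).card : ℝ) ≤
      F x q k i j := by
    have h1 : 1 / ((ball x q i (C * dd x q i j)).card : ℝ) ≤ φ x q i j :=
      φ_ge x q hq0 i j _ (by
        intro y hy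
        rw [mem_ball] at hy ⊢
        nlinarith)
    calc w x q k i j / v x q i j / ((ball x q i (C * dd x q i j)).card : ℝ) =
          1 / ((ball x q i (C * dd x q i j)).card : ℝ) * (w x q k i j / v x q i j) := by ring
      _ ≤ φ x q i j * (w x q k i j / v x q i j) := mul_le_mul_of_nonneg_right h1 hR0
  have hFl : ∀ l ∈ ((ball x q i (C * dd x q i j)).erase i).erase j,
      1 / ((ball x q i ((C + 2) * dd x q i j)).card : ℝ) *
        (2 / ((2 : ℝ) ^ q * (C + 1) ^ q) * (w x q k i j / v x q i j)) ≤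
      F x q k i l + F x q k j l := by
    intro l hl
    have hlB1 : l ∈ ball x q i (C * dd x q i j) :=
      Finset.mem_of_mem_erase (Finset.mem_of_mem_erase hl)
    exact term_bound x q hq k i j l C hC1 hvpos ((mem_ball x q i l _).1 hlB1)
  have hsum := Finset.card_nsmul_le_sum (((ball x q i (C * dd x q i j)).erase i).erase j)
    (fun l => F x q k i l + F x q k j l) _ hFl
  rw [nsmul_eq_mul, hB'card] at hsum
  apply arith_final (w x q k i j / v x q i j) ((2 : ℝ) ^ q) ((C + 1) ^ q)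
    ((ball x q i (C * dd x q i j)).card : ℝ) ((ball x q i ((C + 2) * dd x q i j)).card : ℝ)
    (T x q k) hR0 hP2 hE1 (by exact_mod_cast hcard2) (by exact_mod_cast hb3pos)
    (by exact_mod_cast hdbl)
  linarith

theorem pair_bound (x : Fin n → Fin m → ℝ) (q : ℝ) (hq : 1 ≤ q) (k : Fin m) (i j : Fin n) :
    w x q k i j ≤
      2 * (2 : ℝ) ^ q * (2 * (Nat.log 2 n : ℝ) + 2) ^ q * T x q k * v x q i j := by
  have hq0 : 0 < q := by linarith
  have hT0 : 0 ≤ T x q k := T_nonneg x q k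
  have hv0 := v_nonneg x q i j
  rcases hv0.eq_or_lt with hvz | hvpos
  · have h1 := w_le_v x q k i j
    rw [← hvz] at h1 ⊢
    simpa using h1
  have hρpos : 0 < dd x q i j := Real.rpow_pos_of_pos hvpos _
  -- a doubling scale
  obtain ⟨μ, hμM, hμ⟩ := exists_doubling n
    (fun μ => (ball x q i ((2 * (μ : ℝ) + 1) * dd x q i j)).card)
    (by
      show 1 ≤ (ball x q i ((2 * ((0 : ℕ) : ℝ) + 1) * dd x q i j)).card
      apply Finset.card_pos.2
      refine ⟨i, (mem_ball x q i i _).2 ?_⟩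
      rw [dd_self x q hq0]
      simp only [Nat.cast_zero, mul_zero, zero_add, one_mul]
      exact hρpos.le)
    (by
      intro μ
      calc (ball x q i ((2 * (μ : ℝ) + 1) * dd x q i j)).card
          ≤ (Finset.univ : Finset (Fin n)).card :=
            Finset.card_le_card (Finset.subset_univ _)
        _ = n := by simp)
  have hC1 : (1 : ℝ) ≤ 2 * (μ : ℝ) + 1 := by
    have : (0 : ℝ) ≤ μ := Nat.cast_nonneg _
    linarith
  have hC3 : (2 * ((μ + 1 : ℕ) : ℝ) + 1) * dd x q i j = (2 * (μ : ℝ) + 1 + 2) * dd x q i j := by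
    push_cast; ring
  rw [hC3] at hμ
  have hmain := pair_bound_scale x q hq k i j (2 * (μ : ℝ) + 1) hC1 hvpos hμ
  have hEE : (2 * (μ : ℝ) + 1 + 1) ^ q ≤ (2 * (Nat.log 2 n : ℝ) + 2) ^ q := by
    apply Real.rpow_le_rpow (by linarith) _ (by linarith)
    have : (μ : ℝ) ≤ Nat.log 2 n := by exact_mod_cast hμM
    linarith
  have hP0 : 0 < (2 : ℝ) ^ q := Real.rpow_pos_of_pos (by norm_num) _
  have hw : w x q k i j = w x q k i j / v x q i j * v x q i j := by
    rw [div_mul_cancel₀ _ hvpos.ne']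
  rw [hw]
  have hfin : w x q k i j / v x q i j ≤
      2 * (2 : ℝ) ^ q * (2 * (Nat.log 2 n : ℝ) + 2) ^ q * T x q k := by
    refine hmain.trans ?_
    have h : 2 * (2 : ℝ) ^ q * (2 * (μ : ℝ) + 1 + 1) ^ q ≤
        2 * (2 : ℝ) ^ q * (2 * (Nat.log 2 n : ℝ) + 2) ^ q :=
      mul_le_mul_of_nonneg_left hEE (by positivity)
    exact mul_le_mul_of_nonneg_right h hT0
  exact mul_le_mul_of_nonneg_right hfin hv0

/-! ### The sensitivity statement -/

theorem log_ge_half (n : ℕ) (hn : 2 ≤ n) : (1 / 2 : ℝ) ≤ Real.log n := by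
  have hn' : (2 : ℝ) ≤ n := by exact_mod_cast hn
  have h1 : Real.log 2 ≤ Real.log n := Real.log_le_log (by norm_num) hn'
  have h2 := Real.log_two_gt_d9
  linarith

theorem log2_bound (n : ℕ) (hn : 2 ≤ n) : 2 * (Nat.log 2 n : ℝ) + 2 ≤ 8 * Real.log n := by
  have hn0 : n ≠ 0 := by omega
  have h1 : 2 ^ Nat.log 2 n ≤ n := Nat.pow_log_le_self 2 hn0
  have h2 : (2 : ℝ) ^ Nat.log 2 n ≤ n := by exact_mod_cast h1
  have h3 : Real.log ((2 : ℝ) ^ Nat.log 2 n) ≤ Real.log n := Real.log_le_log (by positivity) h2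
  rw [Real.log_pow] at h3
  have h4 := Real.log_two_gt_d9
  have h5 := log_ge_half n hn
  have h6 : (Nat.log 2 n : ℝ) * (1 / 2) ≤ (Nat.log 2 n : ℝ) * Real.log 2 :=
    mul_le_mul_of_nonneg_left (by linarith) (Nat.cast_nonneg _)
  linarith

/-- **Pair-sensitivity bound.** For `n ≥ 2` points of `ℝ^m` and `q ≥ 1` there are
coordinate weights `s k ≥ 0` dominating the relative contribution of coordinate `k` to
every pair, of total mass at most `6 * 2^q * 8^q * n * (log n)^(q+1)`. -/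
theorem sens (q : ℝ) (hq : 1 ≤ q) :
    ∀ (n m : ℕ), 2 ≤ n → ∀ x : Fin n → Fin m → ℝ,
      ∃ s : Fin m → ℝ, (∀ k, 0 ≤ s k) ∧
        (∀ k a b, |x a k - x b k| ^ q ≤ s k * ∑ k', |x a k' - x b k'| ^ q) ∧
        ∑ k, s k ≤ (6 * (2 : ℝ) ^ q * (8 : ℝ) ^ q) * n * Real.log n ^ (q + 1) := by
  intro n m hn x
  have hlog : (1 / 2 : ℝ) ≤ Real.log n := log_ge_half n hn
  have hlog0 : 0 < Real.log n := by linarith
  have hM0 : (0 : ℝ) ≤ 2 * (Nat.log 2 n : ℝ) + 2 := by positivity
  have hP0 : 0 < (2 : ℝ) ^ q := Real.rpow_pos_of_pos (by norm_num) _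
  have hK0 : 0 ≤ 2 * (2 : ℝ) ^ q * (2 * (Nat.log 2 n : ℝ) + 2) ^ q :=
    mul_nonneg (by positivity) (Real.rpow_nonneg hM0 _)
  refine ⟨fun k => 2 * (2 : ℝ) ^ q * (2 * (Nat.log 2 n : ℝ) + 2) ^ q * T x q k,
    fun k => mul_nonneg hK0 (T_nonneg x q k), fun k a b => pair_bound x q hq k a b, ?_⟩
  rw [← Finset.mul_sum]
  have h1 := sum_T_le x q
  have h2 : (2 * (Nat.log 2 n : ℝ) + 2) ^ q ≤ (8 : ℝ) ^ q * Real.log n ^ q := by
    rw [← Real.mul_rpow (by norm_num) hlog0.le]
    exact Real.rpow_le_rpow hM0 (log2_bound n hn) (by linarith)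
  have h3 : (n : ℝ) * (1 + Real.log n) ≤ n * (3 * Real.log n) :=
    mul_le_mul_of_nonneg_left (by linarith) (Nat.cast_nonneg n)
  have h4 : Real.log n ^ (q + 1) = Real.log n ^ q * Real.log n :=
    Real.rpow_add_one hlog0.ne' q
  have hsT : 0 ≤ ∑ k, T x q k := Finset.sum_nonneg (fun k _ => T_nonneg x q k)
  have h8 : 0 < (8 : ℝ) ^ q := Real.rpow_pos_of_pos (by norm_num) _
  have hlq : 0 ≤ Real.log n ^ q := Real.rpow_nonneg hlog0.le _
  calc 2 * (2 : ℝ) ^ q * (2 * (Nat.log 2 n : ℝ) + 2) ^ q * ∑ k, T x q k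
      ≤ 2 * (2 : ℝ) ^ q * ((8 : ℝ) ^ q * Real.log n ^ q) * (n * (3 * Real.log n)) :=
        mul_le_mul (mul_le_mul_of_nonneg_left h2 (by positivity)) (h1.trans h3) hsT
          (mul_nonneg (by positivity) (mul_nonneg h8.le hlq))
    _ = 6 * (2 : ℝ) ^ q * (8 : ℝ) ^ q * n * (Real.log n ^ q * Real.log n) := by ring
    _ = 6 * (2 : ℝ) ^ q * (8 : ℝ) ^ q * n * Real.log n ^ (q + 1) := by rw [h4]

end Vale.Agent.Lib.P249.H75.Sens
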